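import Vale.Agent.P274.Full.Defs
import Mathlib.Analysis.Calculus.FDeriv.Symmetric
import Mathlib.Analysis.Calculus.MeanValue
import Mathlib.Analysis.Calculus.ContDiff.FTaylorSeries
import Mathlib.Analysis.Complex.Schwarz
import Mathlib.LinearAlgebra.FiniteDimensional.Basic

/-!
Weighted coordinates at a point of an edge, and the limit of the scaled height over the edge.
-/

open Filter Metric Set Topology

namespace Vale.Agent.P274.Full.Scaling

noncomputable section

variable {m k : ℕ}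

theorem rv_apply (w : Cn k) (i : Fin k) : rv w i = (w i).re := rfl
theorem iv_apply (w : Cn k) (i : Fin k) : iv w i = (w i).im := rfl
theorem mkC_re (u v : Rn k) (i : Fin k) : (mkC u v i).re = u i := rfl
theorem mkC_im (u v : Rn k) (i : Fin k) : (mkC u v i).im = v i := rfl

theorem cn_ext {w w' : Cn k} (hr : rv w = rv w') (hi : iv w = iv w') : w = w' :=
  PiLp.ext fun i => Complex.ext (by simpa [rv_apply] using congrArg (fun v : Rn k => v i) hr)
    (by simpa [iv_apply] using congrArg (fun v : Rn k => v i) hi)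

@[simp] theorem rv_mkC (u v : Rn k) : rv (mkC u v) = u := rfl
@[simp] theorem iv_mkC (u v : Rn k) : iv (mkC u v) = v := rfl

theorem mkC_rv_iv (w : Cn k) : mkC (rv w) (iv w) = w := cn_ext (rv_mkC _ _) (iv_mkC _ _)

/-- The real part as a linear map. -/
def rvL : Cn k →L[ℝ] Rn k := LinearMap.toContinuousLinearMap
  { toFun := rv
    map_add' := fun a b => by ext i; simp [rv_apply]
    map_smul' := fun c a => by ext i; simp [rv_apply] }

/-- The imaginary part as a linear map. -/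
def ivL : Cn k →L[ℝ] Rn k := LinearMap.toContinuousLinearMap
  { toFun := iv
    map_add' := fun a b => by ext i; simp [iv_apply]
    map_smul' := fun c a => by ext i; simp [iv_apply] }

@[simp] theorem rvL_apply (w : Cn k) : rvL w = rv w := rfl
@[simp] theorem ivL_apply (w : Cn k) : ivL w = iv w := rfl

theorem continuous_rv : Continuous (rv : Cn k → Rn k) := rvL.continuous
theorem continuous_iv : Continuous (iv : Cn k → Rn k) := ivL.continuous

theorem iv_smul_real (c : ℝ) (w : Cn k) : iv ((c : ℂ) • w) = c • iv w := by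
  ext i; simp [iv_apply]

theorem rv_smul_real (c : ℝ) (w : Cn k) : rv ((c : ℂ) • w) = c • rv w := by
  ext i; simp [rv_apply]

theorem continuous_mkC : Continuous fun p : Rn k × Rn k => mkC p.1 p.2 := by
  refine (PiLp.continuous_toLp 2 _).comp (continuous_pi fun i => ?_)
  have h : Continuous fun p : Rn k × Rn k => ((p.1 i, p.2 i) : ℝ × ℝ) := by fun_prop
  exact (Complex.equivRealProdCLM.symm.continuous.comp h).congr fun y => by
    apply Complex.ext <;> simp [Complex.equivRealProdCLM_symm_apply]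

/-- A real bilinear map which turns `I` in the first slot into the imaginary unit gives a
complex linear map. -/
def toC (f : Cn m →L[ℝ] Rn k) : Cn m →L[ℂ] Cn k :=
  LinearMap.toContinuousLinearMap
    { toFun := fun a => mkC (f (Complex.I • a)) (f a)
      map_add' := fun a b => by
        refine cn_ext ?_ ?_ <;> ext i <;> simp [rv_apply, iv_apply, smul_add, mkC_re, mkC_im]
      map_smul' := fun c a => by
        have h1 : f (c • a) = c.re • f a + c.im • f (Complex.I • a) := by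
          conv_lhs => rw [← Complex.re_add_im c, add_smul, mul_smul, Complex.coe_smul,
            Complex.coe_smul]
          rw [map_add, map_smul, map_smul]
        have h2 : f (Complex.I • c • a) = c.re • f (Complex.I • a) - c.im • f a := by
          conv_lhs => rw [← Complex.re_add_im c, add_smul, mul_smul, smul_add, smul_comm Complex.I
            (c.re : ℂ), smul_comm Complex.I (c.im : ℂ), smul_smul Complex.I Complex.I,
            Complex.I_mul_I, neg_one_smul, Complex.coe_smul, Complex.coe_smul]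
          rw [map_add, map_smul f c.re, map_smul f c.im, map_neg, smul_neg, sub_eq_add_neg]
        refine cn_ext ?_ ?_ <;> ext i <;> simp [rv_apply, iv_apply, mkC_re, mkC_im, h1, h2] }

@[simp] theorem toC_apply (f : Cn m →L[ℝ] Rn k) (a : Cn m) :
    toC f a = mkC (f (Complex.I • a)) (f a) := rfl

/-- Second order data of an edge at a point. -/
structure Jet (m k : ℕ) where
  z₀ : Cn m
  w₀ : Cn k
  J : Rn k →L[ℝ] Rn k
  J_le : ‖J‖ ≤ 1 / 4
  L : Cn m →L[ℝ] Rn k
  B : (Cn m × Rn k) →L[ℝ] (Cn m × Rn k) →L[ℝ] Rn k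
  B_symm : ∀ a b, B a b = B b a

namespace Jet

variable (j : Jet m k)

/-- `w ↦ w - i J w`. -/
def A : Cn k →L[ℂ] Cn k := LinearMap.toContinuousLinearMap
  { toFun := fun w => mkC (rv w + j.J (iv w)) (iv w - j.J (rv w))
    map_add' := fun a b => by
      have hr : rv (a + b) = rv a + rv b := rvL.map_add a b
      have hi : iv (a + b) = iv a + iv b := ivL.map_add a b
      refine cn_ext ?_ ?_ <;> ext i <;>
        simp [rv_apply, iv_apply, mkC_re, mkC_im, hr, hi] <;> ring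
    map_smul' := fun c a => by
      have hr : rv (c • a) = c.re • rv a - c.im • iv a := by ext i; simp [rv_apply, iv_apply]
      have hi : iv (c • a) = c.re • iv a + c.im • rv a := by ext i; simp [rv_apply, iv_apply]
      refine cn_ext ?_ ?_ <;> ext i <;>
        simp [rv_apply, iv_apply, mkC_re, mkC_im, hr, hi] <;> ring }

theorem rv_A (w : Cn k) : rv (j.A w) = rv w + j.J (iv w) := rfl
theorem iv_A (w : Cn k) : iv (j.A w) = iv w - j.J (rv w) := rfl

theorem norm_J_apply (u : Rn k) : ‖j.J u‖ ≤ 1 / 4 * ‖u‖ :=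
  (j.J.le_opNorm u).trans (mul_le_mul_of_nonneg_right j.J_le (norm_nonneg u))

theorem A_injective : Function.Injective j.A := by
  refine (injective_iff_map_eq_zero _).2 fun w hw => ?_
  have h1 : rv w = -j.J (iv w) := by
    have := j.rv_A w; rw [hw] at this
    exact eq_neg_of_add_eq_zero_left (this.symm.trans (rvL.map_zero))
  have h2 : iv w = j.J (rv w) := by
    have := j.iv_A w; rw [hw] at this
    exact sub_eq_zero.1 (this.symm.trans (ivL.map_zero))
  have a1 := j.norm_J_apply (iv w)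
  have a2 := j.norm_J_apply (rv w)
  have e1 : ‖rv w‖ = ‖j.J (iv w)‖ := by rw [h1, norm_neg]
  have e2 : ‖iv w‖ = ‖j.J (rv w)‖ := congrArg _ h2
  have hu : rv w = 0 := norm_le_zero_iff.1 (by nlinarith [norm_nonneg (rv w), norm_nonneg (iv w)])
  have hv : iv w = 0 := norm_le_zero_iff.1 (by nlinarith [norm_nonneg (rv w), norm_nonneg (iv w)])
  rw [← mkC_rv_iv w, hu, hv]
  exact cn_ext (by rw [rv_mkC]; exact rvL.map_zero.symm) (by rw [iv_mkC]; exact ivL.map_zero.symm)

/-- `A` as an equivalence. -/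
def Ae : Cn k ≃L[ℂ] Cn k :=
  (LinearEquiv.ofInjectiveEndo (j.A : Cn k →ₗ[ℂ] Cn k) j.A_injective).toContinuousLinearEquiv

@[simp] theorem Ae_apply (w : Cn k) : j.Ae w = j.A w := rfl

@[simp] theorem A_Ae_symm (w : Cn k) : j.A (j.Ae.symm w) = w := j.Ae.apply_symm_apply w

/-- The linear form correcting the first derivative in `z`. -/
def lm : Cn m →L[ℂ] Cn k := toC (-j.L)

theorem rv_lm (a : Cn m) : rv (j.lm a) = -j.L (Complex.I • a) := rfl
theorem iv_lm (a : Cn m) : iv (j.lm a) = -j.L a := rfl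

/-- The linear change of coordinates `(ζ, ω) ↦ (Δz, Δw)`. -/
def lin : Mod m k →L[ℂ] Mod m k :=
  (ContinuousLinearMap.fst ℂ (Cn m) (Cn k)).prod
    ((j.Ae.symm : Cn k →L[ℂ] Cn k).comp
      (ContinuousLinearMap.snd ℂ (Cn m) (Cn k) -
        j.lm.comp (ContinuousLinearMap.fst ℂ (Cn m) (Cn k))))

theorem lin_apply (ζ : Cn m) (ω : Cn k) : j.lin (ζ, ω) = (ζ, j.Ae.symm (ω - j.lm ζ)) := rfl

/-- The height over the tangent edge in the new coordinates. -/
theorem iv_lin (ζ : Cn m) (ω : Cn k) :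
    iv (j.lin (ζ, ω)).2 = j.J (rv (j.lin (ζ, ω)).2) + j.L ζ + iv ω := by
  have h := j.iv_A (j.Ae.symm (ω - j.lm ζ))
  rw [A_Ae_symm, ← ivL_apply, map_sub, ivL_apply, ivL_apply, iv_lm, sub_neg_eq_add] at h
  rw [lin_apply]
  linear_combination (norm := abel) -h

/-- The tangent base vector over `a`. -/
def T : Cn m →L[ℝ] Cn m × Rn k :=
  (ContinuousLinearMap.id ℝ (Cn m)).prod
    (rvL.comp (((ContinuousLinearMap.snd ℂ (Cn m) (Cn k)).comp
      (j.lin.comp (ContinuousLinearMap.inl ℂ (Cn m) (Cn k)))).restrictScalars ℝ))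

theorem T_apply (a : Cn m) : j.T a = (a, rv (j.lin (a, 0)).2) := rfl

/-- Multiplication by `I` on real linear maps. -/
def mulI : Cn m →L[ℝ] Cn m :=
  (Complex.I • ContinuousLinearMap.id ℂ (Cn m)).restrictScalars ℝ

@[simp] theorem mulI_apply (a : Cn m) : mulI a = Complex.I • a := rfl

/-- The pluriharmonic part. -/
def S : Cn m →L[ℝ] Cn m →L[ℝ] Rn k :=
  (1 / 4 : ℝ) • (j.B.bilinearComp j.T j.T - j.B.bilinearComp (j.T.comp mulI) (j.T.comp mulI))

/-- The Levi form. -/
def H : Cn m →L[ℝ] Cn m →L[ℝ] Rn k :=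
  (1 / 4 : ℝ) • (j.B.bilinearComp j.T j.T + j.B.bilinearComp (j.T.comp mulI) (j.T.comp mulI))

theorem S_apply (a b : Cn m) : j.S a b = (1 / 4 : ℝ) •
    (j.B (j.T a) (j.T b) - j.B (j.T (Complex.I • a)) (j.T (Complex.I • b))) := rfl

theorem H_apply (a b : Cn m) : j.H a b = (1 / 4 : ℝ) •
    (j.B (j.T a) (j.T b) + j.B (j.T (Complex.I • a)) (j.T (Complex.I • b))) := rfl

theorem H_symm (a b : Cn m) : j.H a b = j.H b a := by
  rw [H_apply, H_apply, j.B_symm (j.T a), j.B_symm (j.T (Complex.I • a))]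

theorem I_I_smul (a : Cn m) : Complex.I • Complex.I • a = -a := by
  rw [smul_smul, Complex.I_mul_I, neg_one_smul]

theorem H_I (a b : Cn m) : j.H (Complex.I • a) (Complex.I • b) = j.H a b := by
  simp only [H_apply, I_I_smul, map_neg, neg_neg, neg_apply]
  rw [add_comm]

theorem S_symm (a b : Cn m) : j.S a b = j.S b a := by
  rw [S_apply, S_apply, j.B_symm (j.T a), j.B_symm (j.T (Complex.I • a))]

theorem S_I (a b : Cn m) : j.S (Complex.I • a) (Complex.I • b) = -j.S a b := by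
  simp only [S_apply, I_I_smul, map_neg, neg_neg, neg_apply]
  rw [← smul_neg, neg_sub]

/-- The holomorphic bilinear map whose imaginary part is `S`. -/
def q2 : Cn m →L[ℂ] Cn m →L[ℂ] Cn k :=
  LinearMap.toContinuousLinearMap
    { toFun := fun a => toC (j.S a)
      map_add' := fun a b => by
        refine ContinuousLinearMap.ext fun c => cn_ext ?_ ?_ <;> ext i <;>
          simp [rv_apply, iv_apply, mkC_re, mkC_im]
      map_smul' := fun t a => by
        refine ContinuousLinearMap.ext fun c => ?_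
        have h : ∀ d, j.S (t • a) d = t.re • j.S a d + t.im • j.S a (Complex.I • d) := fun d => by
          have h1 : j.S (Complex.I • a) d = j.S a (Complex.I • d) := by
            have := j.S_I a (-(Complex.I • d))
            rwa [smul_neg, I_I_smul, neg_neg, map_neg, neg_neg] at this
          rw [← h1]
          conv_lhs => rw [← Complex.re_add_im t, add_smul, mul_smul, Complex.coe_smul,
            Complex.coe_smul]
          simp [map_add, map_smul]
        refine cn_ext ?_ ?_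
        · ext i
          simp [rv_apply, mkC_re, mkC_im, h, I_I_smul]
          ring
        · ext i
          simp [iv_apply, mkC_re, mkC_im, h] }

theorem iv_q2 (a b : Cn m) : iv (j.q2 a b) = j.S a b := rfl

/-- The point with scaled coordinates `p`. -/
def Θ (l : ℝ) (p : Mod m k) : Mod m k :=
  (j.z₀, j.w₀) + j.lin ((l : ℂ) • p.1, ((l : ℂ) ^ 2) • (p.2 + j.q2 p.1 p.1))

/-- The scaled coordinates of a point. -/
def Θi (l : ℝ) (y : Mod m k) : Mod m k :=
  ((l : ℂ)⁻¹ • (y.1 - j.z₀),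
    ((l : ℂ) ^ 2)⁻¹ • (j.A (y.2 - j.w₀) + j.lm (y.1 - j.z₀)) -
      j.q2 ((l : ℂ)⁻¹ • (y.1 - j.z₀)) ((l : ℂ)⁻¹ • (y.1 - j.z₀)))

theorem Θi_Θ {l : ℝ} (hl : l ≠ 0) (p : Mod m k) : j.Θi l (j.Θ l p) = p := by
  have hl' : (l : ℂ) ≠ 0 := Complex.ofReal_ne_zero.2 hl
  have h1 : (j.Θ l p).1 - j.z₀ = (l : ℂ) • p.1 := by simp [Θ, lin_apply]
  have h2 : j.A ((j.Θ l p).2 - j.w₀) =
      ((l : ℂ) ^ 2) • (p.2 + j.q2 p.1 p.1) - j.lm ((l : ℂ) • p.1) := by
    simp [Θ, lin_apply]
  simp only [Θi, h1, h2, sub_add_cancel]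
  rw [inv_smul_smul₀ (pow_ne_zero 2 hl'), inv_smul_smul₀ hl', add_sub_cancel_right]

theorem Θ_Θi {l : ℝ} (hl : l ≠ 0) (y : Mod m k) : j.Θ l (j.Θi l y) = y := by
  have hl' : (l : ℂ) ≠ 0 := Complex.ofReal_ne_zero.2 hl
  simp only [Θ, Θi]
  rw [sub_add_cancel, smul_inv_smul₀ (pow_ne_zero 2 hl'), smul_inv_smul₀ hl', lin_apply,
    add_sub_cancel_right, ← Ae_apply, j.Ae.symm_apply_apply]
  exact Prod.ext (add_sub_cancel _ _) (add_sub_cancel _ _)

theorem differentiable_Θ (l : ℝ) : Differentiable ℂ (j.Θ l) := by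
  have h1 : Differentiable ℂ fun p : Mod m k => j.q2 p.1 p.1 :=
    (j.q2.differentiable.comp differentiable_fst).clm_apply differentiable_fst
  have h2 : Differentiable ℂ fun p : Mod m k => (l : ℂ) • p.1 := by fun_prop
  have h3 : Differentiable ℂ fun p : Mod m k => ((l : ℂ) ^ 2) • (p.2 + j.q2 p.1 p.1) := by fun_prop
  exact (j.lin.differentiable.comp (h2.prodMk h3)).const_add _

theorem differentiable_Θi (l : ℝ) : Differentiable ℂ (j.Θi l) := by
  have h1 : Differentiable ℂ fun y : Mod m k => (l : ℂ)⁻¹ • (y.1 - j.z₀) := by fun_prop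
  have h2 : Differentiable ℂ fun y : Mod m k =>
      ((l : ℂ) ^ 2)⁻¹ • (j.A (y.2 - j.w₀) + j.lm (y.1 - j.z₀)) := by fun_prop
  exact h1.prodMk (h2.sub ((j.q2.differentiable.comp h1).clm_apply h1))

/-- The base point of `Θ l p`. -/
def base (l : ℝ) (p : Mod m k) : Cn m × Rn k := ((j.Θ l p).1, rv (j.Θ l p).2)

/-- The scaled displacement of the base. -/
def dir (l : ℝ) (p : Mod m k) : Cn m × Rn k :=
  (p.1, rv (j.lin (p.1, (l : ℂ) • (p.2 + j.q2 p.1 p.1))).2)

theorem base_eq (l : ℝ) (p : Mod m k) : j.base l p = (j.z₀, rv j.w₀) + l • j.dir l p := by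
  have h : j.lin ((l : ℂ) • p.1, ((l : ℂ) ^ 2) • (p.2 + j.q2 p.1 p.1)) =
      (l : ℂ) • j.lin (p.1, (l : ℂ) • (p.2 + j.q2 p.1 p.1)) := by
    rw [← map_smul, Prod.smul_mk, smul_smul, sq]
  rw [base, Θ, h]
  refine Prod.ext ?_ ?_
  · simp [dir, lin_apply, Complex.coe_smul]
  · rw [Prod.snd_add, ← rvL_apply, map_add, rvL_apply, rvL_apply, Prod.smul_snd, rv_smul_real]
    rfl

theorem tendsto_dir (p : Mod m k) :
    Tendsto (fun q : ℝ × Mod m k => j.dir q.1 q.2) (𝓝[>] 0 ×ˢ 𝓝 p) (𝓝 (j.T p.1)) := by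
  have hc : Continuous fun q : ℝ × Mod m k => j.dir q.1 q.2 :=
    (continuous_fst.comp continuous_snd).prodMk (continuous_rv.comp (continuous_snd.comp
      (j.lin.continuous.comp ((continuous_fst.comp continuous_snd).prodMk
        ((Complex.continuous_ofReal.comp continuous_fst).smul
          ((continuous_snd.comp continuous_snd).add
            ((j.q2.continuous.comp (continuous_fst.comp continuous_snd)).clm_apply
              (continuous_fst.comp continuous_snd))))))))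
  have hle : 𝓝[>] (0 : ℝ) ×ˢ 𝓝 p ≤ 𝓝 ((0 : ℝ), p) := by
    rw [nhds_prod_eq (x := (0 : ℝ)) (y := p)]
    exact Filter.prod_mono (nhdsWithin_le_nhds : 𝓝[>] (0 : ℝ) ≤ 𝓝 0) le_rfl
  have h := (hc.tendsto ((0 : ℝ), p)).mono_left hle
  simpa [dir, T_apply] using h

theorem tendsto_base (p : Mod m k) :
    Tendsto (fun q : ℝ × Mod m k => j.base q.1 q.2) (𝓝[>] 0 ×ˢ 𝓝 p) (𝓝 (j.z₀, rv j.w₀)) := by
  simp only [base_eq]
  have h1 : Tendsto (fun q : ℝ × Mod m k => q.1) (𝓝[>] 0 ×ˢ 𝓝 p) (𝓝 0) :=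
    tendsto_fst.mono_right nhdsWithin_le_nhds
  simpa using (h1.smul (j.tendsto_dir p)).const_add (j.z₀, rv j.w₀)

end Jet

/-- Second order Taylor expansion along converging directions. -/
theorem tendsto_taylor {E F ι : Type*} [NormedAddCommGroup E] [NormedSpace ℝ E]
    [NormedAddCommGroup F] [NormedSpace ℝ F] {f : E → F} {x : E} (hf : ContDiffAt ℝ 2 f x)
    {l : Filter ι} {s : ι → ℝ} {v : ι → E} {v₀ : E} (hs : Tendsto s l (𝓝[>] 0))
    (hv : Tendsto v l (𝓝 v₀)) :
    Tendsto (fun i => ((s i) ^ 2)⁻¹ • (f (x + s i • v i) - f x - fderiv ℝ f x (s i • v i))) l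
      (𝓝 ((1 / 2 : ℝ) • fderiv ℝ (fderiv ℝ f) x v₀ v₀)) := by
  set B := fderiv ℝ (fderiv ℝ f) x with hBdef
  have hsym : ∀ a b, B a b = B b a := fun a b => hf.isSymmSndFDerivAt (by norm_num) a b
  have hB : HasFDerivAt (fderiv ℝ f) B x :=
    ((hf.fderiv_right (m := 1) (by norm_num)).differentiableAt one_ne_zero).hasFDerivAt
  set g : E → F := fun D => f (x + D) - f x - fderiv ℝ f x D - (1 / 2 : ℝ) • B D D with hg
  have key : ∀ ε > 0, ∀ᶠ D in 𝓝 (0 : E), ‖g D‖ ≤ ε * ‖D‖ ^ 2 := by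
    intro ε hε
    have h1 := hB.isLittleO.bound hε
    have h2 : ∀ᶠ y in 𝓝 x, DifferentiableAt ℝ f y :=
      (hf.eventually (by simp)).mono fun y hy => hy.differentiableAt two_ne_zero
    obtain ⟨r, hr, hb⟩ := Metric.eventually_nhds_iff_ball.1 (h1.and h2)
    refine Metric.eventually_nhds_iff_ball.2 ⟨r, hr, fun D hD => ?_⟩
    rw [mem_ball_zero_iff] at hD
    have hmem : ∀ y : E, ‖y‖ ≤ ‖D‖ → x + y ∈ ball x r := fun y hy => by
      simpa [dist_eq_norm] using hy.trans_lt hD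
    have hd : ∀ y ∈ closedBall (0 : E) ‖D‖, HasFDerivWithinAt g
        (fderiv ℝ f (x + y) - fderiv ℝ f x - B y) (closedBall 0 ‖D‖) y := by
      intro y hy
      rw [mem_closedBall_zero_iff] at hy
      have a1 : HasFDerivAt (fun D => f (x + D)) (fderiv ℝ f (x + y)) y :=
        (hasFDerivAt_comp_add_left x).2 (hb _ (hmem y hy)).2.hasFDerivAt
      have a2 : HasFDerivAt (fun D => (1 / 2 : ℝ) • B D D) (B y) y := by
        have h := ((B.hasFDerivAt (x := y)).clm_apply (hasFDerivAt_id (𝕜 := ℝ) y)).const_smul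
          (1 / 2 : ℝ)
        refine h.congr_fderiv (ContinuousLinearMap.ext fun w => ?_)
        simp only [smul_apply, add_apply, ContinuousLinearMap.comp_apply,
          ContinuousLinearMap.flip_apply, id, ContinuousLinearMap.id_apply]
        rw [hsym w y, ← two_smul ℝ, smul_smul]
        norm_num
      exact (((a1.sub_const (f x)).sub (fderiv ℝ f x).hasFDerivAt).sub a2).hasFDerivWithinAt
    have hle : ∀ y ∈ closedBall (0 : E) ‖D‖,
        ‖fderiv ℝ f (x + y) - fderiv ℝ f x - B y‖ ≤ ε * ‖D‖ := fun y hy => by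
      rw [mem_closedBall_zero_iff] at hy
      have := (hb _ (hmem y hy)).1
      simp only [add_sub_cancel_left] at this
      exact this.trans (mul_le_mul_of_nonneg_left hy hε.le)
    have hmv := (convex_closedBall (0 : E) ‖D‖).norm_image_sub_le_of_norm_hasFDerivWithin_le hd hle
      (mem_closedBall_self (norm_nonneg D)) (mem_closedBall_zero_iff.2 le_rfl)
    simpa [hg, sq, mul_assoc] using hmv
  have hs0 : Tendsto s l (𝓝 0) := hs.mono_right nhdsWithin_le_nhds
  have hD : Tendsto (fun i => s i • v i) l (𝓝 0) := by simpa using hs0.smul hv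
  have hmain : Tendsto (fun i => ((s i) ^ 2)⁻¹ • g (s i • v i)) l (𝓝 0) := by
    rw [Metric.tendsto_nhds]
    intro η hη
    filter_upwards [hD.eventually (key (η / ((‖v₀‖ + 1) ^ 2 * 2)) (by positivity)),
      hv.norm.eventually (gt_mem_nhds (lt_add_one ‖v₀‖)), hs.eventually self_mem_nhdsWithin]
      with i hi hiv (his : 0 < s i)
    rw [dist_zero_right, norm_smul, norm_inv, norm_pow, Real.norm_eq_abs, abs_of_pos his]
    rw [norm_smul, Real.norm_eq_abs, abs_of_pos his, mul_pow] at hi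
    calc ((s i) ^ 2)⁻¹ * ‖g (s i • v i)‖
        ≤ ((s i) ^ 2)⁻¹ * (η / ((‖v₀‖ + 1) ^ 2 * 2) * (s i ^ 2 * ‖v i‖ ^ 2)) := by gcongr
      _ = η / ((‖v₀‖ + 1) ^ 2 * 2) * ‖v i‖ ^ 2 := by field_simp
      _ ≤ η / ((‖v₀‖ + 1) ^ 2 * 2) * (‖v₀‖ + 1) ^ 2 := by gcongr
      _ < η := by field_simp; linarith
  have hBc : Tendsto (fun i => (1 / 2 : ℝ) • B (v i) (v i)) l (𝓝 ((1 / 2 : ℝ) • B v₀ v₀)) :=
    ((((B.continuous.clm_apply continuous_id).tendsto v₀).comp hv).const_smul (1 / 2 : ℝ))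
  have hsum := hmain.add hBc
  rw [zero_add] at hsum
  refine hsum.congr' ?_
  filter_upwards [hs.eventually self_mem_nhdsWithin] with i (his : 0 < s i)
  simp only [hg, map_smul, smul_apply]
  rw [smul_sub ((s i ^ 2)⁻¹) _ ((1 / 2 : ℝ) • _), smul_smul (s i), smul_comm (1 / 2 : ℝ) (s i * s i),
    ← sq (s i), inv_smul_smul₀ (by positivity), sub_add_cancel]

/-- The jet of the edge of a piece at a base point. -/
def jetAt {N : ℕ} {D : CDom N} (P : Loc D m k) (x : Cn m × Rn k) (hx : x ∈ P.S) : Jet m k where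
  z₀ := x.1
  w₀ := mkC x.2 (P.h x)
  J := (fderiv ℝ P.h x).comp (ContinuousLinearMap.inr ℝ (Cn m) (Rn k))
  J_le := by
    refine ((fderiv ℝ P.h x).opNorm_comp_le _).trans ?_
    have h : ‖ContinuousLinearMap.inr ℝ (Cn m) (Rn k)‖ ≤ 1 :=
      ContinuousLinearMap.opNorm_le_bound _ zero_le_one fun u => by simp
    calc ‖fderiv ℝ P.h x‖ * ‖ContinuousLinearMap.inr ℝ (Cn m) (Rn k)‖ ≤ 1 / 4 * 1 :=
          mul_le_mul (P.small_h x hx) h (norm_nonneg _) (by norm_num)
      _ = 1 / 4 := mul_one _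
  L := (fderiv ℝ P.h x).comp (ContinuousLinearMap.inl ℝ (Cn m) (Rn k))
  B := fderiv ℝ (fderiv ℝ P.h) x
  B_symm := fun a b =>
    (P.smooth_h.contDiffAt (P.isOpen_S.mem_nhds hx)).isSymmSndFDerivAt (by norm_num) a b

variable {N : ℕ} {D : CDom N} (P : Loc D m k) (x : Cn m × Rn k) (hx : x ∈ P.S)

/-- The scaled height over the edge. -/
def dft (l : ℝ) (p : Mod m k) : Rn k :=
  (l ^ 2)⁻¹ • (iv ((jetAt P x hx).Θ l p).2 - P.h ((jetAt P x hx).base l p))

theorem lift_dft {l : ℝ} (hl : l ≠ 0) (p : Mod m k) :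
    lift P.h ((jetAt P x hx).base l p) ((l ^ 2) • dft P x hx l p) = (jetAt P x hx).Θ l p := by
  rw [dft, smul_inv_smul₀ (pow_ne_zero 2 hl), lift, add_sub_cancel]
  exact Prod.ext rfl (mkC_rv_iv _)

theorem tendsto_dft (p : Mod m k) :
    Tendsto (fun q : ℝ × Mod m k => dft P x hx q.1 q.2) (𝓝[>] 0 ×ˢ 𝓝 p)
      (𝓝 (iv p.2 - (jetAt P x hx).H p.1 p.1)) := by
  set j := jetAt P x hx with hj
  have hC : ContDiffAt ℝ 2 P.h x :=
    (P.smooth_h.contDiffAt (P.isOpen_S.mem_nhds hx)).of_le (by norm_num)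
  have hT := tendsto_taylor hC tendsto_fst (j.tendsto_dir p)
  have hI : Tendsto (fun q : ℝ × Mod m k => iv (q.2.2 + j.q2 q.2.1 q.2.1)) (𝓝[>] 0 ×ˢ 𝓝 p)
      (𝓝 (iv (p.2 + j.q2 p.1 p.1))) :=
    ((continuous_iv.comp (continuous_snd.add
      ((j.q2.continuous.comp continuous_fst).clm_apply continuous_fst))).tendsto p).comp tendsto_snd
  have hlim : iv (p.2 + j.q2 p.1 p.1) - (1 / 2 : ℝ) • fderiv ℝ (fderiv ℝ P.h) x (j.T p.1) (j.T p.1)
      = iv p.2 - j.H p.1 p.1 := by
    rw [← ivL_apply, map_add, ivL_apply, ivL_apply, Jet.iv_q2, Jet.S_apply, Jet.H_apply]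
    simp only [hj, jetAt]
    module
  rw [← hlim]
  refine (hI.sub hT).congr' ?_
  filter_upwards [tendsto_fst.eventually self_mem_nhdsWithin] with q (hq : 0 < q.1)
  have hb : j.base q.1 q.2 = x + q.1 • j.dir q.1 q.2 := by
    rw [j.base_eq]
    simp [hj, jetAt]
  have h1 : iv (j.Θ q.1 q.2).2 = P.h x + (j.J (rv (j.lin ((q.1 : ℂ) • q.2.1,
      ((q.1 : ℂ) ^ 2) • (q.2.2 + j.q2 q.2.1 q.2.1))).2) + j.L ((q.1 : ℂ) • q.2.1) +
      q.1 ^ 2 • iv (q.2.2 + j.q2 q.2.1 q.2.1)) := by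
    rw [Jet.Θ, Prod.snd_add, ← ivL_apply, map_add, ivL_apply, ivL_apply, j.iv_lin,
      show ((q.1 : ℂ) ^ 2) = ((q.1 ^ 2 : ℝ) : ℂ) by push_cast; rfl, iv_smul_real]
    congr 1
  have h2 : fderiv ℝ P.h x (q.1 • j.dir q.1 q.2) =
      j.J (rv (j.lin ((q.1 : ℂ) • q.2.1, ((q.1 : ℂ) ^ 2) • (q.2.2 + j.q2 q.2.1 q.2.1))).2) +
        j.L ((q.1 : ℂ) • q.2.1) := by
    have hd : q.1 • j.dir q.1 q.2 = ((q.1 : ℂ) • q.2.1,
        rv (j.lin ((q.1 : ℂ) • q.2.1, ((q.1 : ℂ) ^ 2) • (q.2.2 + j.q2 q.2.1 q.2.1))).2) := by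
      have := congrArg (fun y => y - ((j.z₀, rv j.w₀) : Cn m × Rn k)) (j.base_eq q.1 q.2)
      simp only [add_sub_cancel_left] at this
      rw [← this, Jet.base, Jet.Θ, Prod.mk_sub_mk, Prod.fst_add, Prod.snd_add, ← rvL_apply,
        map_add, rvL_apply, rvL_apply]
      simp [Jet.lin_apply]
    rw [hd]
    simp only [hj, jetAt, ContinuousLinearMap.comp_apply, ContinuousLinearMap.inr_apply,
      ContinuousLinearMap.inl_apply, ← map_add, Prod.mk_add_mk, zero_add, add_zero]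
  rw [dft, ← hj, h1, hb, h2]
  conv_lhs => rw [← inv_smul_smul₀ (pow_ne_zero 2 hq.ne') (iv (q.2.2 + j.q2 q.2.1 q.2.1))]
  rw [← smul_sub]
  congr 1
  abel

end

end Vale.Agent.P274.Full.Scaling
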