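import Vale.Agent.P274.Full.Tool.Formula
import Mathlib.Algebra.MvPolynomial.Funext
import Mathlib.Topology.Algebra.MvPolynomial
import Mathlib.Topology.Baire.CompleteMetrizable
import Mathlib.Topology.Baire.Lemmas

/-!
Generic points of an edge: for each rational ball of heights, the scaled ball is uniformly inside
or uniformly not inside the domain.
-/

open Filter Metric Set Topology MvPolynomial

namespace Vale.Agent.P274.Full.Scaling

noncomputable section

/-- The zero set of a nonzero polynomial has no interior. -/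
theorem interior_zeros {ι : Type} [Fintype ι] {p : MvPolynomial ι ℝ} (hp : p ≠ 0) :
    interior {x : ι → ℝ | eval x p = 0} = ∅ := by
  by_contra h
  obtain ⟨x, hx⟩ := nonempty_iff_ne_empty.2 h
  obtain ⟨ε, hε, hball⟩ := Metric.isOpen_iff.1 isOpen_interior x hx
  refine hp (MvPolynomial.funext_set (fun i => Ioo (x i - ε) (x i + ε))
    (fun i => Ioo_infinite (by linarith)) fun y hy => ?_)
  rw [map_zero]
  have hyb : y ∈ ball x ε := by
    rw [mem_ball, dist_pi_lt_iff hε]
    intro i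
    have := hy i trivial
    rw [Real.dist_eq, abs_lt]
    exact ⟨by linarith [this.1], by linarith [this.2]⟩
  exact interior_subset (s := {x : ι → ℝ | MvPolynomial.eval x p = 0}) (hball hyb)

/-- The frontier of a semialgebraic set has no interior. -/
theorem interior_frontier_SA {ι : Type} [Fintype ι] {A : Set (ι → ℝ)} (h : SA A) :
    interior (frontier A) = ∅ := by
  classical
  obtain ⟨l, P, T, hT⟩ := h
  set q : MvPolynomial ι ℝ := ∏ i ∈ Finset.univ.filter (fun i => P i ≠ 0), P i with hq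
  have hq0 : q ≠ 0 := Finset.prod_ne_zero_iff.2 fun i hi => (Finset.mem_filter.1 hi).2
  refine eq_empty_of_subset_empty ((interior_mono fun x hx => ?_).trans (interior_zeros hq0).subset)
  by_contra hne
  have hconst : ∀ᶠ y in 𝓝 x, ∀ i,
      SignType.sign (eval y (P i)) = SignType.sign (eval x (P i)) := by
    refine eventually_all.2 fun i => ?_
    by_cases hi : P i = 0
    · simp [hi]
    have hxi : eval x (P i) ≠ 0 := fun h0 => hne <| by
      show eval x q = 0
      rw [hq, map_prod]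
      exact Finset.prod_eq_zero (Finset.mem_filter.2 ⟨Finset.mem_univ i, hi⟩) h0
    have hc : ContinuousAt (fun y : ι → ℝ => eval y (P i)) x :=
      (MvPolynomial.continuous_eval (P i)).continuousAt
    rcases lt_or_gt_of_ne hxi with hlt | hgt
    · filter_upwards [hc.eventually (gt_mem_nhds hlt)] with y hy
      rw [sign_neg hy, sign_neg hlt]
    · filter_upwards [hc.eventually (lt_mem_nhds hgt)] with y hy
      rw [sign_pos hy, sign_pos hgt]
  have hmem : ∀ᶠ y in 𝓝 x, (y ∈ A ↔ x ∈ A) := hconst.mono fun y hy => by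
    rw [hT, hT, funext hy]
  by_cases hxA : x ∈ A
  · exact hx.2 (mem_interior_iff_mem_nhds.2 (hmem.mono fun y hy => hy.2 hxA))
  · obtain ⟨y, hy, hyA⟩ := mem_closure_iff_nhds.1 hx.1 _ hmem
    exact hxA (hy.1 hyA)

variable {m k : ℕ}

/-- A base point from its real coordinates. -/
def baseOf (y : (Fin m ⊕ Fin m) ⊕ Fin k → ℝ) : Cn m × Rn k :=
  (WithLp.toLp 2 fun i => (⟨y (Sum.inl (Sum.inl i)), y (Sum.inl (Sum.inr i))⟩ : ℂ),
    WithLp.toLp 2 fun i => y (Sum.inr i))

theorem baseOf_rcBase (x : Cn m × Rn k) : baseOf (rcBase x) = x := by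
  obtain ⟨z, u⟩ := x
  simp [baseOf, rcBase, rc]

theorem rcBase_baseOf (y : (Fin m ⊕ Fin m) ⊕ Fin k → ℝ) : rcBase (baseOf y) = y := by
  funext i
  rcases i with (i | i) | i <;> simp [baseOf, rcBase, rc]

/-- Real coordinates of the base, as a homeomorphism. -/
def baseHomeo : Cn m × Rn k ≃ₜ ((Fin m ⊕ Fin m) ⊕ Fin k → ℝ) where
  toFun := rcBase
  invFun := baseOf
  left_inv := baseOf_rcBase
  right_inv := rcBase_baseOf
  continuous_toFun := continuous_pi fun i => by
    rcases i with (i | i) | i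
    · exact Complex.continuous_re.comp
        (((EuclideanSpace.proj i : Cn m →L[ℂ] ℂ).continuous).comp continuous_fst)
    · exact Complex.continuous_im.comp
        (((EuclideanSpace.proj i : Cn m →L[ℂ] ℂ).continuous).comp continuous_fst)
    · exact ((EuclideanSpace.proj i : Rn k →L[ℝ] ℝ).continuous).comp continuous_snd
  continuous_invFun := by
    refine ((PiLp.continuous_toLp 2 _).comp (continuous_pi fun i => ?_)).prodMk
      ((PiLp.continuous_toLp 2 _).comp (continuous_pi fun i => continuous_apply _))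
    have h : Continuous fun y : (Fin m ⊕ Fin m) ⊕ Fin k → ℝ =>
        ((y (Sum.inl (Sum.inl i)), y (Sum.inl (Sum.inr i))) : ℝ × ℝ) := by fun_prop
    exact (Complex.equivRealProdCLM.symm.continuous.comp h).congr fun y => by
      apply Complex.ext <;> simp [Complex.equivRealProdCLM_symm_apply]

variable {N : ℕ} {D : CDom N}

/-- The coordinates `(x, l, d)`. -/
def xld (x : Cn m × Rn k) (l : ℝ) (d : Rn k) : (((Fin m ⊕ Fin m) ⊕ Fin k) ⊕ Unit) ⊕ Fin k → ℝ :=
  Sum.elim (Sum.elim (rcBase x) fun _ => l) fun i => d i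

theorem sa_member (P : Patch D m k) (hp : SAProjStmt) :
    SA {y : (((Fin m ⊕ Fin m) ⊕ Fin k) ⊕ Unit) ⊕ Fin k → ℝ | ∃ x l d, y = xld x l d ∧
      x ∈ P.S ∧ lift P.h x ((l ^ 2) • d) ∈ P.toChart.Uc} := by
  have h1 := P.sa_h.reindex (ι := ((((Fin m ⊕ Fin m) ⊕ Fin k) ⊕ Unit) ⊕ Fin k) ⊕ Fin k)
    (Sum.elim (fun i => Sum.inl (Sum.inl (Sum.inl i))) Sum.inr)
  have h2 := P.sa_Uc.preimage (ι := ((((Fin m ⊕ Fin m) ⊕ Fin k) ⊕ Unit) ⊕ Fin k) ⊕ Fin k)
    (Sum.elim (fun i => X (Sum.inl (Sum.inl (Sum.inl (Sum.inl i)))))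
      (Sum.elim (fun i => X (Sum.inl (Sum.inl (Sum.inl (Sum.inr i)))))
        fun i => X (Sum.inr i) +
          X (Sum.inl (Sum.inl (Sum.inr ()))) ^ 2 * X (Sum.inl (Sum.inr i))))
  refine ((h1.inter h2).exists' hp).of_eq ?_
  ext y
  simp only [Chart.Uc, mem_inter_iff, mem_ofPred_eq, mem_image]
  constructor
  · rintro ⟨v, ⟨x, hx, hxy⟩, p, ⟨hpW, hpU⟩, hpy⟩
    refine ⟨x, y (Sum.inl (Sum.inr ())), WithLp.toLp 2 fun i => y (Sum.inr i), ?_, hx, ?_⟩
    · funext i
      rcases i with (i | i) | i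
      · simpa [xld] using congrFun hxy (Sum.inl i)
      · simp [xld]
      · simp [xld]
    · suffices hpl : p = lift P.h x ((y (Sum.inl (Sum.inr ())) ^ 2) •
          WithLp.toLp 2 fun i => y (Sum.inr i)) by rw [← hpl]; exact ⟨hpW, hpU⟩
      refine Prod.ext (PiLp.ext fun i => Complex.ext ?_ ?_) (PiLp.ext fun i => Complex.ext ?_ ?_)
      · have a := congrFun hpy (Sum.inl (Sum.inl i))
        have b := congrFun hxy (Sum.inl (Sum.inl (Sum.inl i)))
        simp [rcMod, rcBase, rc, lift] at a b ⊢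
        linarith
      · have a := congrFun hpy (Sum.inl (Sum.inr i))
        have b := congrFun hxy (Sum.inl (Sum.inl (Sum.inr i)))
        simp [rcMod, rcBase, rc, lift] at a b ⊢
        linarith
      · have a := congrFun hpy (Sum.inr (Sum.inl i))
        have b := congrFun hxy (Sum.inl (Sum.inr i))
        simp [rcMod, rcBase, rc, lift, mkC] at a b ⊢
        linarith
      · have a := congrFun hpy (Sum.inr (Sum.inr i))
        have b := congrFun hxy (Sum.inr i)
        simp [rcMod, rcBase, rc, lift, mkC] at a b ⊢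
        linarith
  · rintro ⟨x, l, d, rfl, hx, hmem⟩
    refine ⟨fun i => P.h x i, ⟨x, hx, ?_⟩, lift P.h x ((l ^ 2) • d), hmem, ?_⟩
    · funext i
      rcases i with i | i <;> simp [xld]
    · funext i
      rcases i with (i | i) | (i | i) <;> simp [xld, rcMod, rcBase, rc, lift, mkC]

/-- The scaled ball of heights over `x` lies in the domain. -/
def In (P : Patch D m k) (c : Rn k) (ρ : ℝ) (x : Cn m × Rn k) (l : ℝ) : Prop :=
  ∀ d ∈ closedBall c ρ, lift P.h x ((l ^ 2) • d) ∈ P.toChart.Uc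

theorem sa_In (P : Patch D m k) (hp : SAProjStmt) (c : Rn k) {ρ : ℝ} (hρ : 0 ≤ ρ) :
    SA {y : ((Fin m ⊕ Fin m) ⊕ Fin k) ⊕ Unit → ℝ | baseOf (y ∘ Sum.inl) ∈ P.S →
      In P c ρ (baseOf (y ∘ Sum.inl)) (y (Sum.inr ()))} := by
  have hball : SA {z : (((Fin m ⊕ Fin m) ⊕ Fin k) ⊕ Unit) ⊕ Fin k → ℝ |
      eval z (∑ i, (X (Sum.inr i) - C (c i)) ^ 2) ≤ eval z (C (ρ ^ 2))} := SA.le _ _
  have hS : SA {z : (((Fin m ⊕ Fin m) ⊕ Fin k) ⊕ Unit) ⊕ Fin k → ℝ |
      baseOf (z ∘ Sum.inl ∘ Sum.inl) ∈ P.S} := by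
    refine ((P.sa_h.exists' hp).reindex (Sum.inl ∘ Sum.inl)).of_eq ?_
    ext z
    simp only [mem_ofPred_eq]
    constructor
    · rintro ⟨t, x, hx, hxy⟩
      have : (z ∘ Sum.inl ∘ Sum.inl) = rcBase x := funext fun i => congrFun hxy (Sum.inl i)
      rwa [this, baseOf_rcBase]
    · intro h
      refine ⟨fun i => P.h (baseOf (z ∘ Sum.inl ∘ Sum.inl)) i, _, h, ?_⟩
      rw [rcBase_baseOf]
  refine ((hball.and hS).imp (sa_member P hp)).forall' hp |>.of_eq ?_
  ext y
  simp only [mem_ofPred_eq, In, map_sum, map_pow, map_sub, eval_X, eval_C, Sum.elim_inr,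
    ← Function.comp_assoc, Sum.elim_comp_inl]
  have hnorm : ∀ d : Rn k, d ∈ closedBall c ρ ↔ ∑ i, (d i - c i) ^ 2 ≤ ρ ^ 2 := fun d => by
    rw [mem_closedBall, dist_eq_norm, ← pow_le_pow_iff_left₀ (norm_nonneg _) hρ two_ne_zero,
      EuclideanSpace.norm_sq_eq]
    simp [sq_abs]
  constructor
  · intro H hS d hd
    obtain ⟨x, l, d', he, -, hm⟩ := H (fun i => d i) ⟨(hnorm d).1 hd, hS⟩
    have e1 : y ∘ Sum.inl = rcBase x :=
      funext fun i => by simpa [xld] using congrFun he (Sum.inl (Sum.inl i))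
    have e2 : y (Sum.inr ()) = l := by simpa [xld] using congrFun he (Sum.inl (Sum.inr ()))
    have e3 : d = d' := PiLp.ext fun i => by simpa [xld] using congrFun he (Sum.inr i)
    rw [e1, baseOf_rcBase, e2, e3]
    exact hm
  · rintro H t ⟨ht, hS⟩
    refine ⟨baseOf (y ∘ Sum.inl), y (Sum.inr ()), WithLp.toLp 2 t, ?_, hS,
      H hS _ ((hnorm _).2 (by simpa using ht))⟩
    funext i
    rcases i with (i | i) | i
    · simp [xld, rcBase_baseOf]
    · simp [xld]
    · simp [xld]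

/-- For every ball of rational radius around a point of the countable dense set, the scaled ball
is uniformly inside or uniformly not inside near `x`. -/
def Generic (P : Patch D m k) (x : Cn m × Rn k) : Prop :=
  ∀ i n : ℕ,
    (∃ δ > 0, ∀ x' ∈ ball x δ, ∀ l ∈ Ioo 0 δ,
      In P (TopologicalSpace.denseSeq (Rn k) i) (1 / (n + 1)) x' l) ∨
    ∃ δ > 0, ∀ x' ∈ ball x δ, ∀ l ∈ Ioo 0 δ,
      ¬ In P (TopologicalSpace.denseSeq (Rn k) i) (1 / (n + 1)) x' l

theorem exists_generic (P : Patch D m k) (hp : SAProjStmt) (ht : SATailStmt)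
    {S' : Set (Cn m × Rn k)} (hS' : IsOpen S') (hne : S'.Nonempty) (hsub : S' ⊆ P.S) :
    ∃ x ∈ S', Generic P x := by
  set E : Bool → ℕ → ℕ → ℕ → Set ((Fin m ⊕ Fin m) ⊕ Fin k → ℝ) := fun b i n j =>
    {y | ∀ t : ℝ, Sum.elim y (fun _ : Unit => t) ∈
      {z : ((Fin m ⊕ Fin m) ⊕ Fin k) ⊕ Unit → ℝ | (0 < z (Sum.inr ()) ∧
          z (Sum.inr ()) < 1 / (j + 1)) →
        z ∈ bif b then {w | baseOf (w ∘ Sum.inl) ∈ P.S →
            In P (TopologicalSpace.denseSeq (Rn k) i) (1 / (n + 1)) (baseOf (w ∘ Sum.inl))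
              (w (Sum.inr ()))}
          else {w | baseOf (w ∘ Sum.inl) ∈ P.S →
            In P (TopologicalSpace.denseSeq (Rn k) i) (1 / (n + 1)) (baseOf (w ∘ Sum.inl))
              (w (Sum.inr ()))}ᶜ}} with hEdef
  have hEsa : ∀ b i n j, SA (E b i n j) := fun b i n j => by
    have hI : SA {z : ((Fin m ⊕ Fin m) ⊕ Fin k) ⊕ Unit → ℝ |
        0 < z (Sum.inr ()) ∧ z (Sum.inr ()) < 1 / (j + 1)} :=
      ((SA.coord_pos (Sum.inr ())).inter (SA.lt (X (Sum.inr ())) (C (1 / ((j : ℝ) + 1))))).congr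
        fun z => by simp
    refine SA.forall_real hp (hI.imp ?_)
    cases b
    · exact (sa_In P hp _ (by positivity)).compl
    · exact sa_In P hp _ (by positivity)
  obtain ⟨x, hxS, hx⟩ := ((dense_iInter_of_isOpen (f := fun q : Bool × ℕ × ℕ × ℕ =>
      (baseHomeo ⁻¹' frontier (E q.1 q.2.1 q.2.2.1 q.2.2.2))ᶜ)
      (fun q => (isClosed_frontier.preimage baseHomeo.continuous).isOpen_compl)
      fun q => by
        rw [← interior_eq_empty_iff_dense_compl, ← baseHomeo.preimage_interior,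
          interior_frontier_SA (hEsa _ _ _ _), preimage_empty]).inter_open_nonempty S' hS' hne)
  refine ⟨x, hxS, fun i n => ?_⟩
  have hmain : ∀ b, (∀ᶠ l in 𝓝[>] (0 : ℝ), Sum.elim (rcBase x) (fun _ : Unit => l) ∈
      bif b then {w | baseOf (w ∘ Sum.inl) ∈ P.S →
          In P (TopologicalSpace.denseSeq (Rn k) i) (1 / (n + 1)) (baseOf (w ∘ Sum.inl))
            (w (Sum.inr ()))}
        else {w | baseOf (w ∘ Sum.inl) ∈ P.S →
          In P (TopologicalSpace.denseSeq (Rn k) i) (1 / (n + 1)) (baseOf (w ∘ Sum.inl))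
            (w (Sum.inr ()))}ᶜ) →
      ∃ δ > 0, ∀ x' ∈ ball x δ, x' ∈ P.S ∧ ∀ l ∈ Ioo 0 δ, Sum.elim (rcBase x') (fun _ : Unit => l) ∈
      bif b then {w | baseOf (w ∘ Sum.inl) ∈ P.S →
          In P (TopologicalSpace.denseSeq (Rn k) i) (1 / (n + 1)) (baseOf (w ∘ Sum.inl))
            (w (Sum.inr ()))}
        else {w | baseOf (w ∘ Sum.inl) ∈ P.S →
          In P (TopologicalSpace.denseSeq (Rn k) i) (1 / (n + 1)) (baseOf (w ∘ Sum.inl))
            (w (Sum.inr ()))}ᶜ := by
    intro b hev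
    obtain ⟨a, ha, hsub'⟩ := mem_nhdsGT_iff_exists_Ioo_subset.1 hev
    obtain ⟨j, hj⟩ := exists_nat_one_div_lt (show (0 : ℝ) < a from ha)
    have hxE : rcBase x ∈ E b i n j := fun t ht' => hsub' ⟨ht'.1, ht'.2.trans hj⟩
    have hxF : rcBase x ∉ frontier (E b i n j) := mem_iInter.1 hx (b, i, n, j)
    have hxI : rcBase x ∈ interior (E b i n j) := by
      by_contra h
      exact hxF ⟨subset_closure hxE, h⟩
    obtain ⟨δ, hδ, hball⟩ := Metric.isOpen_iff.1
      ((isOpen_interior.preimage baseHomeo.continuous).inter P.isOpen_S) x ⟨hxI, hsub hxS⟩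
    refine ⟨min δ (1 / (j + 1)), lt_min hδ (by positivity), fun x' hx' =>
      ⟨(hball (ball_subset_ball (min_le_left _ _) hx')).2, fun l hl => ?_⟩⟩
    exact interior_subset (hball (ball_subset_ball (min_le_left _ _) hx')).1 l
      ⟨hl.1, hl.2.trans_le (min_le_right _ _)⟩
  rcases ht _ _ (sa_In P hp (TopologicalSpace.denseSeq (Rn k) i)
      (show (0 : ℝ) ≤ 1 / (n + 1) by positivity)) (rcBase x) with h | h
  · obtain ⟨δ, hδ, hd⟩ := hmain true h
    refine Or.inl ⟨δ, hδ, fun x' hx' l hl => ?_⟩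
    have := (hd x' hx').2 l hl
    simp only [cond_true, mem_ofPred_eq, Sum.elim_comp_inl, baseOf_rcBase, Sum.elim_inr] at this
    exact this (hd x' hx').1
  · obtain ⟨δ, hδ, hd⟩ := hmain false h
    refine Or.inr ⟨δ, hδ, fun x' hx' l hl hin => ?_⟩
    have := (hd x' hx').2 l hl
    simp only [cond_false, mem_compl_iff, mem_ofPred_eq, Sum.elim_comp_inl, baseOf_rcBase,
      Sum.elim_inr] at this
    exact this fun _ => hin

end

end Vale.Agent.P274.Full.Scaling
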