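import Vale.Agent.P274.Surface.Holo
import Mathlib.LinearAlgebra.Matrix.ToLin
import Mathlib.LinearAlgebra.Determinant

/-!
Bounded families of holomorphic maps: limits along ultrafilters, derivatives, open mapping and a
half-plane Schwarz lemma.
-/

open Filter Metric Set Function Topology

namespace Vale.Agent.P274.Full.Scaling

variable {X Y : Type*} [NormedAddCommGroup X] [NormedSpace ℂ X] [FiniteDimensional ℂ X]
  [NormedAddCommGroup Y] [NormedSpace ℂ Y] [FiniteDimensional ℂ Y]

omit [FiniteDimensional ℂ X] [FiniteDimensional ℂ Y] in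
/-- A holomorphic map bounded on a ball is Lipschitz on the ball of half radius. -/
theorem dist_le_of_bounded {f : X → Y} {x : X} {r M : ℝ} (hr : 0 < r)
    (hd : DifferentiableOn ℂ f (ball x r)) (hb : ∀ y ∈ ball x r, ‖f y‖ ≤ M) {y z : X}
    (hy : y ∈ ball x (r / 2)) (hz : z ∈ ball x (r / 2)) :
    ‖f y - f z‖ ≤ 4 * M / r * ‖y - z‖ := by
  refine (convex_ball x (r / 2)).norm_image_sub_le_of_norm_fderiv_le (𝕜 := ℂ) (fun w hw => ?_)
    (fun w hw => ?_) hz hy
  · exact hd.differentiableAt (isOpen_ball.mem_nhds (ball_subset_ball (by linarith) hw))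
  · have hsub : ball w (r / 2) ⊆ ball x r := ball_subset_ball' (by linarith [mem_ball.1 hw])
    have hw' : w ∈ ball x r := ball_subset_ball (by linarith) hw
    have hm : MapsTo f (ball w (r / 2)) (closedBall (f w) (2 * M)) := fun v hv => by
      rw [mem_closedBall, dist_eq_norm]
      linarith [norm_sub_le (f v) (f w), hb v (hsub hv), hb w hw']
    refine (Complex.norm_fderiv_le_div_of_mapsTo_ball (hd.mono hsub) hm (by positivity)).trans
      (le_of_eq ?_)
    field_simp
    ring

/-- Along an ultrafilter, a bounded family of holomorphic maps converges uniformly on smaller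
balls. -/
theorem exists_unif_limit {ι : Type*} (l : Ultrafilter ι) {F : ι → X → Y} {x : X} {r M : ℝ}
    (hr : 0 < r)
    (hF : ∀ᶠ j in (l : Filter ι), DifferentiableOn ℂ (F j) (ball x r) ∧
      ∀ y ∈ ball x r, ‖F j y‖ ≤ M) :
    ∃ g : X → Y, TendstoUniformlyOn F g l (closedBall x (r / 4)) := by
  have : ProperSpace X := FiniteDimensional.proper ℂ X
  have : ProperSpace Y := FiniteDimensional.proper ℂ Y
  have hsub : closedBall x (r / 4) ⊆ ball x (r / 2) := closedBall_subset_ball (by linarith)
  have hpt : ∀ y, ∃ a, y ∈ ball x r → Tendsto (fun j => F j y) l (𝓝 a) := by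
    intro y
    by_cases hy : y ∈ ball x r
    · have : ↑(l.map fun j => F j y) ≤ 𝓟 (closedBall (0 : Y) M) := by
        refine le_principal_iff.2 ?_
        exact Ultrafilter.mem_map.2 (hF.mono fun j hj => by simpa using hj.2 y hy)
      obtain ⟨a, -, ha⟩ := (isCompact_closedBall (0 : Y) M).ultrafilter_le_nhds _ this
      exact ⟨a, fun _ => ha⟩
    · exact ⟨0, fun h => absurd h hy⟩
  choose g hg using hpt
  refine ⟨g, Metric.tendstoUniformlyOn_iff.2 fun ε hε => ?_⟩
  obtain ⟨_, hj⟩ := hF.exists
  set K := max (4 * M / r) 1 with hK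
  have hK0 : 0 < K := lt_of_lt_of_le one_pos (le_max_right _ _)
  obtain ⟨t, ht, htf, htc⟩ := finite_cover_balls_of_compact (isCompact_closedBall x (r / 4))
    (show (0 : ℝ) < ε / (3 * K) by positivity)
  have hlip : ∀ a ∈ ball x (r / 2), ∀ b ∈ ball x (r / 2), dist (g a) (g b) ≤ K * dist a b := by
    intro a ha b hb
    have h2 := ball_subset_ball (show r / 2 ≤ r by linarith) (x := x)
    refine le_of_tendsto ((hg a (h2 ha)).dist (hg b (h2 hb))) ?_
    filter_upwards [hF] with j hj
    rw [dist_eq_norm, dist_eq_norm]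
    exact (dist_le_of_bounded hr hj.1 hj.2 ha hb).trans
      (mul_le_mul_of_nonneg_right (le_max_left _ _) (norm_nonneg _))
  have hnet : ∀ᶠ j in (l : Filter ι), ∀ p ∈ t, dist (g p) (F j p) < ε / 3 :=
    (eventually_all_finite htf).2 fun p hp => by
      have := Metric.tendsto_nhds.1 (hg p (ball_subset_ball (by linarith) (hsub (ht hp))))
        (ε / 3) (by positivity)
      filter_upwards [this] with j hj
      rwa [dist_comm]
  filter_upwards [hnet, hF] with j hj hjF y hy
  obtain ⟨p, hp, hyp⟩ := mem_iUnion₂.1 (htc hy)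
  rw [mem_ball] at hyp
  have hpb := hsub (ht hp)
  have hyb := hsub hy
  have h1 : dist (g y) (g p) ≤ K * dist y p := hlip y hyb p hpb
  have h2 : dist (F j p) (F j y) ≤ K * dist y p := by
    rw [dist_eq_norm, dist_eq_norm, norm_sub_rev y p]
    exact (dist_le_of_bounded hr hjF.1 hjF.2 hpb hyb).trans
      (mul_le_mul_of_nonneg_right (le_max_left _ _) (norm_nonneg _))
  have h3 : K * dist y p < ε / 3 := by
    calc K * dist y p < K * (ε / (3 * K)) := by gcongr
      _ = ε / 3 := by field_simp
  linarith [dist_triangle4 (g y) (g p) (F j p) (F j y), hj p hp]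

omit [NormedAddCommGroup X] [NormedSpace ℂ X] [NormedSpace ℂ Y] [FiniteDimensional ℂ X]
  [FiniteDimensional ℂ Y] in
/-- A uniform limit along any filter is a uniform limit of a sequence with the same properties. -/
theorem exists_seq_of_unif {ι : Type*} {l : Filter ι} [l.NeBot] {F : ι → X → Y} {g : X → Y}
    {S : Set X} (h : TendstoUniformlyOn F g l S) {P : ι → Prop} (hP : ∀ᶠ j in l, P j) :
    ∃ σ : ℕ → ι, (∀ n, P (σ n)) ∧ TendstoUniformlyOn (fun n => F (σ n)) g atTop S := by
  have : ∀ n : ℕ, ∃ j, P j ∧ ∀ y ∈ S, dist (g y) (F j y) < 1 / (n + 1) := fun n =>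
    (hP.and (Metric.tendstoUniformlyOn_iff.1 h (1 / (n + 1)) (by positivity))).exists
  choose σ hσ hσ' using this
  refine ⟨σ, hσ, Metric.tendstoUniformlyOn_iff.2 fun ε hε => ?_⟩
  filter_upwards [tendsto_one_div_add_atTop_nhds_zero_nat.eventually (gt_mem_nhds hε)] with n hn y hy
  exact (hσ' n y hy).trans hn

omit [FiniteDimensional ℂ Y] in
/-- Limits of holomorphic maps, for any filter. -/
theorem differentiableOn_of_unif {ι : Type*} {l : Filter ι} [l.NeBot] {F : ι → X → Y}
    {g : X → Y} {x : X} {s : ℝ} [FiniteDimensional ℂ Y]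
    (h : TendstoUniformlyOn F g l (closedBall x s))
    (hd : ∀ᶠ j in l, DifferentiableOn ℂ (F j) (ball x s)) :
    DifferentiableOn ℂ g (ball x s) := by
  obtain ⟨σ, hσ, hu⟩ := exists_seq_of_unif h hd
  refine differentiableOn_of_tendsto isOpen_ball
    (hu.mono ball_subset_closedBall).tendstoLocallyUniformlyOn fun z hz => ?_
  obtain ⟨r, hr, hrs⟩ := Metric.isOpen_iff.1 isOpen_ball z hz
  exact ⟨r, hr, Eventually.of_forall fun n => (hσ n).mono hrs⟩

omit [FiniteDimensional ℂ X] [FiniteDimensional ℂ Y] in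
/-- Uniform convergence gives uniform convergence of derivatives on smaller balls. -/
theorem unif_fderiv {ι : Type*} {l : Filter ι} {F : ι → X → Y} {g : X → Y} {x : X} {s : ℝ}
    (hs : 0 < s) (h : TendstoUniformlyOn F g l (closedBall x s))
    (hd : ∀ᶠ j in l, DifferentiableOn ℂ (F j) (ball x s))
    (hg : DifferentiableOn ℂ g (ball x s)) :
    TendstoUniformlyOn (fun j => fderiv ℂ (F j)) (fderiv ℂ g) l (closedBall x (s / 2)) := by
  refine Metric.tendstoUniformlyOn_iff.2 fun ε hε => ?_
  filter_upwards [Metric.tendstoUniformlyOn_iff.1 h (ε * s / 16) (by positivity), hd]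
    with j hj hdj y hy
  have hsub : ball y (s / 2) ⊆ ball x s := ball_subset_ball' (by linarith [mem_closedBall.1 hy])
  have hyb : y ∈ ball x s := hsub (mem_ball_self (by positivity))
  have hb : ∀ v ∈ ball x s, ‖g v - F j v‖ ≤ ε * s / 16 := fun v hv => by
    rw [← dist_eq_norm]
    exact (hj v (ball_subset_closedBall hv)).le
  have hm : MapsTo (g - F j) (ball y (s / 2)) (closedBall ((g - F j) y) (ε * s / 8)) :=
    fun v hv => by
      rw [mem_closedBall, dist_eq_norm]
      simp only [Pi.sub_apply]
      linarith [norm_sub_le (g v - F j v) (g y - F j y), hb v (hsub hv), hb y hyb]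
  have hn := Complex.norm_fderiv_le_div_of_mapsTo_ball ((hg.mono hsub).sub (hdj.mono hsub)) hm
    (by positivity)
  rw [fderiv_sub (hg.differentiableAt (isOpen_ball.mem_nhds hyb))
    (hdj.differentiableAt (isOpen_ball.mem_nhds hyb))] at hn
  rw [dist_eq_norm]
  refine hn.trans_lt ?_
  rw [div_lt_iff₀ (by positivity)]
  nlinarith [mul_pos hε hs]

/-- Directional derivatives of holomorphic maps are holomorphic. -/
theorem differentiableOn_fderiv_apply {f : X → Y} {U : Set X} (hU : IsOpen U)
    (hf : DifferentiableOn ℂ f U) (v : X) :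
    DifferentiableOn ℂ (fun y => fderiv ℂ f y v) U := by
  have : ProperSpace X := FiniteDimensional.proper ℂ X
  intro x hx
  obtain ⟨r, hr, hrU⟩ := Metric.nhds_basis_closedBall.mem_iff.1 (hU.mem_nhds hx)
  have hcd : UniformContinuousOn (fderiv ℂ f) (closedBall x r) :=
    (isCompact_closedBall x r).uniformContinuousOn_of_continuous
      ((Surface.continuousOn_fderiv hU hf).mono hrU)
  have ht0 : Tendsto (fun n : ℕ => (1 / (n + 1) : ℝ)) atTop (𝓝 0) :=
    tendsto_one_div_add_atTop_nhds_zero_nat
  set t : ℕ → ℂ := fun n => ((1 / (n + 1) : ℝ) : ℂ) with ht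
  have htn : ∀ n, ‖t n‖ = 1 / (n + 1) := fun n => by
    rw [ht, Complex.norm_real, Real.norm_eq_abs, abs_of_pos (by positivity)]
  have htne : ∀ n, t n ≠ 0 := fun n => norm_pos_iff.1 (by rw [htn]; positivity)
  set Q : ℕ → X → Y := fun n y => (t n)⁻¹ • (f (y + t n • v) - f y) with hQ
  have hsmall : ∀ δ > 0, ∀ᶠ n in atTop, ‖t n • v‖ < δ := fun δ hδ => by
    have := (ht0.mul_const ‖v‖)
    rw [zero_mul] at this
    filter_upwards [this.eventually (gt_mem_nhds hδ)] with n hn
    rwa [norm_smul, htn]
  have hmem : ∀ δ, δ ≤ r / 2 → ∀ y ∈ closedBall x (r / 2), ∀ w : X, ‖w‖ < δ →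
      y + w ∈ closedBall x r := fun δ hδ y hy w hw => by
    rw [mem_closedBall, dist_eq_norm] at hy ⊢
    rw [show y + w - x = (y - x) + w by abel]
    linarith [norm_add_le (y - x) w]
  have hQd : ∀ᶠ n in atTop, DifferentiableOn ℂ (Q n) (ball x (r / 2)) := by
    filter_upwards [hsmall (r / 2) (by positivity)] with n hn
    refine DifferentiableOn.const_smul (DifferentiableOn.sub ?_ ?_) _
    · exact hf.comp (differentiableOn_id.add_const _) fun y hy =>
        hrU (hmem _ le_rfl y (ball_subset_closedBall hy) _ hn)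
    · exact hf.mono ((ball_subset_closedBall.trans (closedBall_subset_closedBall (by linarith))).trans hrU)
  have hQu : TendstoUniformlyOn Q (fun y => fderiv ℂ f y v) atTop (closedBall x (r / 2)) := by
    refine Metric.tendstoUniformlyOn_iff.2 fun ε hε => ?_
    obtain ⟨δ, hδ, hδ'⟩ := Metric.uniformContinuousOn_iff.1 hcd (ε / (‖v‖ + 1)) (by positivity)
    filter_upwards [hsmall (min δ (r / 2)) (lt_min hδ (by positivity))] with n hn y hy
    have hy' : y ∈ closedBall x r := closedBall_subset_closedBall (by linarith) hy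
    set s := closedBall y ‖t n • v‖ with hs
    have hsub : s ⊆ closedBall x r := fun w hw => by
      rw [hs, mem_closedBall, dist_eq_norm] at hw
      simpa using hmem _ (min_le_right δ (r / 2)) y hy (w - y) (hw.trans_lt hn)
    have key := (convex_closedBall y ‖t n • v‖).norm_image_sub_le_of_norm_fderiv_le'
      (𝕜 := ℂ) (φ := fderiv ℂ f y) (C := ε / (‖v‖ + 1))
      (fun w hw => hf.differentiableAt (hU.mem_nhds (hrU (hsub hw))))
      (fun w hw => by
        rw [← dist_eq_norm]
        refine (hδ' w (hsub hw) y hy' ?_).le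
        exact lt_of_le_of_lt hw (hn.trans_le (min_le_left _ _)))
      (mem_closedBall_self (norm_nonneg _))
      (show y + t n • v ∈ s by simp [hs])
    rw [add_sub_cancel_left, map_smul] at key
    rw [dist_eq_norm, norm_sub_rev]
    have heq : Q n y - fderiv ℂ f y v =
        (t n)⁻¹ • (f (y + t n • v) - f y - t n • fderiv ℂ f y v) := by
      rw [smul_sub (t n)⁻¹ _ (t n • _), inv_smul_smul₀ (htne n)]
    rw [heq, norm_smul, norm_inv]
    calc ‖t n‖⁻¹ * ‖f (y + t n • v) - f y - t n • fderiv ℂ f y v‖
        ≤ ‖t n‖⁻¹ * (ε / (‖v‖ + 1) * (‖t n‖ * ‖v‖)) := by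
          gcongr
          exact key.trans_eq (by rw [norm_smul])
      _ = ε * (‖v‖ / (‖v‖ + 1)) := by
          have := norm_ne_zero_iff.2 (htne n)
          field_simp
      _ < ε := by
          have : ‖v‖ / (‖v‖ + 1) < 1 := by
            rw [div_lt_one (by positivity)]; linarith
          nlinarith
  have hd2 := differentiableOn_of_tendsto isOpen_ball
    (hQu.mono ball_subset_closedBall).tendstoLocallyUniformlyOn (fun z hz => by
      obtain ⟨q, hq, hqs⟩ := Metric.isOpen_iff.1 isOpen_ball z hz
      exact ⟨q, hq, hQd.mono fun n hn => hn.mono hqs⟩)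
  exact (hd2.differentiableAt (ball_mem_nhds x (by positivity))).differentiableWithinAt

/-- The Jacobian determinant of a holomorphic map is holomorphic. -/
theorem differentiableOn_det {f : X → X} {U : Set X} (hU : IsOpen U)
    (hf : DifferentiableOn ℂ f U) :
    DifferentiableOn ℂ (fun y => (fderiv ℂ f y).det) U := by
  classical
  set b := Module.finBasis ℂ X with hb
  have hentry : ∀ i j, DifferentiableOn ℂ
      (fun y => LinearMap.toMatrix b b (fderiv ℂ f y : X →ₗ[ℂ] X) i j) U := by
    intro i j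
    have h := differentiableOn_fderiv_apply hU hf (b j)
    have hc : Differentiable ℂ fun v : X => b.coord i v :=
      (LinearMap.toContinuousLinearMap (b.coord i)).differentiable
    simp only [LinearMap.toMatrix_apply]
    exact hc.comp_differentiableOn h
  have heq : ∀ y, (fderiv ℂ f y).det =
      (LinearMap.toMatrix b b (fderiv ℂ f y : X →ₗ[ℂ] X)).det := fun y =>
    (LinearMap.det_toMatrix b _).symm
  simp only [heq, Matrix.det_apply']
  refine DifferentiableOn.fun_sum fun σ _ => DifferentiableOn.const_mul ?_ _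
  induction (Finset.univ : Finset (Fin (Module.finrank ℂ X))) using Finset.induction_on with
  | empty => simp
  | insert a t ha ih =>
    simp only [Finset.prod_insert ha]
    exact (hentry (σ a) a).mul ih

/-- A map whose derivative has nonzero determinant at every point of a ball, and which keeps
the sphere away from a ball, has a ball in its image. -/
theorem ball_subset_image {f : X → X} {x : X} {s ε : ℝ} {p : X} (hs : 0 < s)
    (hd : DifferentiableOn ℂ f (ball x (2 * s)))
    (hdet : ∀ y ∈ ball x s, (fderiv ℂ f y).det ≠ 0) (hc : f x ∈ ball p ε)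
    (hsph : ∀ y ∈ sphere x s, f y ∉ ball p ε) :
    ball p ε ⊆ f '' closedBall x s := by
  have : ProperSpace X := FiniteDimensional.proper ℂ X
  have hsub : closedBall x s ⊆ ball x (2 * s) := closedBall_subset_ball (by linarith)
  have hcl : IsClosed (f '' closedBall x s) :=
    ((isCompact_closedBall x s).image_of_continuousOn (hd.continuousOn.mono hsub)).isClosed
  have hopen : IsOpen (f '' ball x s) := by
    rw [isOpen_iff_mem_nhds]
    rintro _ ⟨y, hy, rfl⟩
    have hyb : y ∈ ball x (2 * s) := hsub (ball_subset_closedBall hy)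
    have hstr := Surface.hasStrictFDerivAt isOpen_ball hd hyb
    have hrange : LinearMap.range (fderiv ℂ f y : X →ₗ[ℂ] X) = ⊤ := by
      have hu := (LinearMap.isUnit_iff_isUnit_det (fderiv ℂ f y : X →ₗ[ℂ] X)).2
        (isUnit_iff_ne_zero.2 (hdet y hy))
      exact LinearMap.range_eq_top.2 ((Module.End.isUnit_iff _).1 hu).2
    rw [← hstr.map_nhds_eq_of_surj hrange]
    exact image_mem_map (isOpen_ball.mem_nhds hy)
  have hball : IsPreconnected (ball p ε) := by
    let : NormedSpace ℝ X := NormedSpace.restrictScalars ℝ ℂ X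
    exact (convex_ball p ε).isPreconnected
  refine (hball.subset_of_closure_inter_subset hopen ⟨f x, hc, x, mem_ball_self hs, rfl⟩ ?_).trans
    (image_mono ball_subset_closedBall)
  rintro v ⟨hv, hvp⟩
  obtain ⟨y, hy, rfl⟩ := closure_minimal (image_mono ball_subset_closedBall) hcl hv
  rcases lt_or_eq_of_le (mem_closedBall.1 hy) with h | h
  · exact ⟨y, h, rfl⟩
  · exact absurd hvp (hsph y h)

omit [FiniteDimensional ℂ X] in
/-- Schwarz lemma for maps of a ball into the left half-plane. -/
theorem norm_le_of_re_neg {f : X → ℂ} {x y : X} {r : ℝ} (hr : 0 < r)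
    (hd : DifferentiableOn ℂ f (ball x r)) (hre : ∀ z ∈ ball x r, (f z).re < 0)
    (hy : y ∈ ball x (r / 2)) : ‖f y‖ ≤ 3 * ‖f x‖ := by
  set a := f x with ha
  have hare : a.re < 0 := hre x (mem_ball_self hr)
  have hden : ∀ z ∈ ball x r, f z + (starRingEnd ℂ) a ≠ 0 := fun z hz h => by
    have := congrArg Complex.re h
    simp at this
    linarith [hre z hz]
  set φ : X → ℂ := fun z => (f z - a) / (f z + (starRingEnd ℂ) a) with hφ
  have hφd : DifferentiableOn ℂ φ (ball x r) :=
    (hd.sub_const a).mul ((hd.add_const _).inv hden) |>.congr fun z _ => div_eq_mul_inv _ _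
  have hφx : φ x = 0 := by simp [hφ, ← ha]
  have hφm : MapsTo φ (ball x r) (closedBall (φ x) 1) := fun z hz => by
    rw [hφx, mem_closedBall_zero_iff]
    simp only [hφ, norm_div]
    refine div_le_one_of_le₀ ?_ (norm_nonneg _)
    rw [← sq_le_sq₀ (norm_nonneg _) (norm_nonneg _), Complex.sq_norm, Complex.sq_norm,
      Complex.normSq_apply, Complex.normSq_apply]
    simp only [Complex.sub_re, Complex.sub_im, Complex.add_re, Complex.add_im, Complex.conj_re,
      Complex.conj_im]
    nlinarith [mul_pos (neg_pos.2 (hre z hz)) (neg_pos.2 hare)]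
  have hy' : y ∈ ball x r := ball_subset_ball (by linarith) hy
  have h := Complex.dist_le_div_mul_dist_of_mapsTo_ball hφd hφm hy'
  rw [hφx, dist_zero_right] at h
  have h2 : ‖φ y‖ ≤ 1 / 2 := by
    refine h.trans ?_
    rw [one_div_mul_eq_div, div_le_iff₀ hr]
    linarith [mem_ball.1 hy]
  have h3 : ‖f y - a‖ = ‖φ y‖ * ‖f y + (starRingEnd ℂ) a‖ := by
    simp only [hφ, norm_div]
    rw [div_mul_cancel₀ _ (norm_ne_zero_iff.2 (hden y hy'))]
  have h4 : ‖f y + (starRingEnd ℂ) a‖ ≤ ‖f y‖ + ‖a‖ :=
    (norm_add_le _ _).trans_eq (by rw [Complex.norm_conj])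
  nlinarith [norm_sub_norm_le (f y) a, norm_nonneg (φ y), norm_nonneg (f y + (starRingEnd ℂ) a)]

end Vale.Agent.P274.Full.Scaling
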