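import Vale.Agent.P274.Full.Scaling.Edge
import Vale.Agent.P274.Full.Scaling.Coord

/-!
The cone of heights above a generic point of the edge, and the kernel of the scaled domains.
-/

open Filter Metric Set Topology

namespace Vale.Agent.P274.Full.Scaling

noncomputable section

variable {N m k : ℕ} {D : CDom N}

namespace Jet

variable (j : Jet m k)

/-- The height over the edge of the limit model. -/
def height (p : Mod m k) : Rn k := iv p.2 - j.H p.1 p.1

theorem continuous_height : Continuous j.height :=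
  (continuous_iv.comp continuous_snd).sub
    ((j.H.continuous.comp continuous_fst).clm_apply continuous_fst)

theorem height_mk (a : Cn m) (u v : Rn k) : j.height (a, mkC u (v + j.H a a)) = v := by
  simp [height]

/-- Changing the last coordinate moves a scaled point along the fibre. -/
theorem Θ_add (l : ℝ) (p : Mod m k) (w : Cn k) :
    j.Θ l (p + (0, j.A w)) = j.Θ l p + (0, ((l : ℂ) ^ 2) • w) := by
  simp only [Θ, Prod.fst_add, Prod.snd_add, add_zero]
  rw [add_right_comm p.2, smul_add ((l : ℂ) ^ 2),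
    show (((l : ℂ) • p.1, ((l : ℂ) ^ 2) • (p.2 + j.q2 p.1 p.1) + ((l : ℂ) ^ 2) • j.A w) : Mod m k) =
      ((l : ℂ) • p.1, ((l : ℂ) ^ 2) • (p.2 + j.q2 p.1 p.1)) + (0, ((l : ℂ) ^ 2) • j.A w) by simp,
    map_add, ← map_smul j.A, j.lin_apply 0 (j.A (((l : ℂ) ^ 2) • w)), map_zero, sub_zero, ← Ae_apply,
    j.Ae.symm_apply_apply, ← add_assoc]

end Jet

/-- Heights which lie in the scaled domain over all base points near `x`. -/
def cset (P : Patch D m k) (x : Cn m × Rn k) : Set (Rn k) :=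
  {d | ∃ δ > 0, ∀ x' ∈ ball x δ, ∀ l ∈ Ioo 0 δ, ∀ d' ∈ ball d δ,
    lift P.h x' ((l ^ 2) • d') ∈ P.toChart.Uc}

variable {P : Patch D m k} {x : Cn m × Rn k}

theorem isOpen_cset : IsOpen (cset P x) := by
  rw [Metric.isOpen_iff]
  rintro d ⟨δ, hδ, h⟩
  refine ⟨δ / 2, by positivity, fun d₁ hd₁ => ⟨δ / 2, by positivity, fun x' hx' l hl d' hd' => ?_⟩⟩
  refine h x' (ball_subset_ball (by linarith) hx') l ⟨hl.1, by linarith [hl.2]⟩ d' ?_
  rw [mem_ball] at hd₁ hd' ⊢
  linarith [dist_triangle d' d₁ d]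

theorem smul_mem_cset {d : Rn k} (hd : d ∈ cset P x) {t : ℝ} (ht : 0 < t) :
    t • d ∈ cset P x := by
  obtain ⟨δ, hδ, h⟩ := hd
  have hst : 0 < Real.sqrt t := Real.sqrt_pos.2 ht
  refine ⟨min δ (min (δ / Real.sqrt t) (δ * t)), by positivity, fun x' hx' l hl d' hd' => ?_⟩
  have hlt : Real.sqrt t * l ∈ Ioo 0 δ := by
    refine ⟨mul_pos hst hl.1, ?_⟩
    rw [mul_comm]
    exact (lt_div_iff₀ hst).1 (hl.2.trans_le ((min_le_right _ _).trans (min_le_left _ _)))
  have hd'' : t⁻¹ • d' ∈ ball d δ := by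
    rw [mem_ball, dist_eq_norm] at hd' ⊢
    rw [show t⁻¹ • d' - d = t⁻¹ • (d' - t • d) by rw [smul_sub, inv_smul_smul₀ ht.ne'],
      norm_smul, norm_inv, Real.norm_eq_abs, abs_of_pos ht, inv_mul_lt_iff₀ ht, mul_comm]
    exact hd'.trans_le ((min_le_right _ _).trans (min_le_right _ _))
  have := h x' (ball_subset_ball (min_le_left _ _) hx') _ hlt _ hd''
  rwa [mul_pow, Real.sq_sqrt ht.le, smul_smul, mul_right_comm, mul_inv_cancel₀ ht.ne',
    one_mul] at this

/-- A test ball inside the scaled domain over `x'` for one small `l` puts its interior in the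
cone. -/
theorem mem_cset_of_In (hgen : Generic P x) {i n : ℕ}
    (h : ∀ δ > 0, ∃ x' ∈ ball x δ, ∃ l ∈ Ioo 0 δ,
      In P (TopologicalSpace.denseSeq (Rn k) i) (1 / (n + 1)) x' l)
    {e : Rn k} (he : dist e (TopologicalSpace.denseSeq (Rn k) i) < 1 / (n + 1)) :
    e ∈ cset P x := by
  rcases hgen i n with ⟨δ, hδ, hin⟩ | ⟨δ, hδ, hout⟩
  · refine ⟨min δ (1 / (n + 1) - dist e (TopologicalSpace.denseSeq (Rn k) i)),
      lt_min hδ (sub_pos.2 he), fun x' hx' l hl d' hd' => ?_⟩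
    refine hin x' (ball_subset_ball (min_le_left _ _) hx') l
      ⟨hl.1, hl.2.trans_le (min_le_left _ _)⟩ d' ?_
    rw [mem_closedBall]
    linarith [dist_triangle d' e (TopologicalSpace.denseSeq (Rn k) i),
      (mem_ball.1 hd').trans_le (min_le_right _ _)]
  · obtain ⟨x', hx', l, hl, hin⟩ := h δ hδ
    exact absurd hin (hout x' hx' l hl)

/-- The cone is not empty. -/
theorem nonempty_cset (I : Inner P) (hxI : x ∈ I.S') (hgen : Generic P x) :
    (cset P x).Nonempty := by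
  set s : ℕ → ℝ := fun n => I.l₀ / (n + 2) with hs
  have hspos : ∀ n, 0 < s n := fun n => div_pos I.l₀_pos (by positivity)
  have hsI : ∀ n, s n ∈ Ioo 0 I.l₀ := fun n => ⟨hspos n, by
    rw [hs, div_lt_iff₀ (by positivity)]
    nlinarith [I.l₀_pos, show (0 : ℝ) ≤ n from Nat.cast_nonneg n]⟩
  have hs0 : Tendsto s atTop (𝓝 0) :=
    tendsto_const_nhds.div_atTop (tendsto_natCast_atTop_atTop.atTop_add tendsto_const_nhds)
  obtain ⟨η₀, -, φ, hφ, hlim⟩ := (isCompact_closedBall (0 : Rn k) I.C).tendsto_subseq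
    (x := fun n => I.η x (s n)) fun n => mem_closedBall_zero_iff.2 (I.bound x hxI _ (hsI n))
  obtain ⟨n, hn⟩ := exists_nat_one_div_lt (show 0 < I.r / 4 by linarith [I.r_pos])
  obtain ⟨i, hi⟩ := (TopologicalSpace.denseRange_denseSeq (Rn k)).exists_dist_lt η₀
    (show (0 : ℝ) < 1 / (n + 1) by positivity)
  refine ⟨η₀, mem_cset_of_In hgen (fun δ hδ => ?_) hi⟩
  obtain ⟨q, hq, hq'⟩ := ((Metric.tendsto_nhds.1 hlim (I.r / 4) (by linarith [I.r_pos])).and
    ((hs0.comp hφ.tendsto_atTop).eventually (gt_mem_nhds hδ))).exists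
  refine ⟨x, mem_ball_self hδ, s (φ q), ⟨hspos _, hq'⟩, fun d hd => I.mem x hxI _ (hsI _) d ?_⟩
  rw [← dist_eq_norm]
  rw [mem_closedBall] at hd
  rw [Function.comp_apply] at hq
  linarith [dist_triangle4 d (TopologicalSpace.denseSeq (Rn k) i) η₀ (I.η x (s (φ q))),
    dist_comm η₀ (TopologicalSpace.denseSeq (Rn k) i), dist_comm η₀ (I.η x (s (φ q))), I.r_pos]

variable {hx : x ∈ P.S}

/-- Points over the cone are eventually in the scaled domains, locally uniformly. -/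
theorem eventually_mem {p : Mod m k} (hp : (jetAt P.toLoc x hx).height p ∈ cset P x) :
    ∀ᶠ q : ℝ × Mod m k in 𝓝[>] 0 ×ˢ 𝓝 p,
      (jetAt P.toLoc x hx).Θ q.1 q.2 ∈ P.toChart.Uc := by
  obtain ⟨δ, hδ, h⟩ := hp
  have hb : (jetAt P.toLoc x hx).z₀ = x.1 ∧ rv (jetAt P.toLoc x hx).w₀ = x.2 := ⟨rfl, rfl⟩
  have hbase := (jetAt P.toLoc x hx).tendsto_base p
  rw [hb.1, hb.2] at hbase
  filter_upwards [tendsto_fst.eventually (Ioo_mem_nhdsGT hδ),
    hbase.eventually (ball_mem_nhds x hδ),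
    (tendsto_dft P.toLoc x hx p).eventually (ball_mem_nhds _ hδ)] with q hl hb hd
  rw [← lift_dft P.toLoc x hx hl.1.ne' q.2]
  exact h _ hb _ hl _ hd

/-- The kernel of the scaled domains lies over the cone. -/
theorem height_mem_cset (hgen : Generic P x) {p : Mod m k} {ε : ℝ} (hε : 0 < ε)
    (hfr : ∃ᶠ l in 𝓝[>] (0 : ℝ),
      ∀ p' ∈ ball p ε, (jetAt P.toLoc x hx).Θ l p' ∈ P.toChart.Uc) :
    (jetAt P.toLoc x hx).height p ∈ cset P x := by
  set j := jetAt P.toLoc x hx with hj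
  obtain ⟨n, hn⟩ := exists_nat_one_div_lt
    (show 0 < ε / (3 * (‖j.A‖ + 1)) by positivity)
  obtain ⟨i, hi⟩ := (TopologicalSpace.denseRange_denseSeq (Rn k)).exists_dist_lt (j.height p)
    (show (0 : ℝ) < 1 / (n + 1) by positivity)
  refine mem_cset_of_In hgen (fun δ hδ => ?_) hi
  have hev : ∀ᶠ l in 𝓝[>] (0 : ℝ), l ∈ Ioo 0 δ ∧ j.base l p ∈ ball x δ ∧
      dist (dft P.toLoc x hx l p) (j.height p) < 1 / (n + 1) := by
    have hpair : Tendsto (fun l : ℝ => (l, p)) (𝓝[>] 0) (𝓝[>] 0 ×ˢ 𝓝 p) :=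
      tendsto_id.prodMk tendsto_const_nhds
    have h1 := ((j.tendsto_base p).comp hpair).eventually (ball_mem_nhds _ hδ)
    have h2 := Metric.tendsto_nhds.1 ((tendsto_dft P.toLoc x hx p).comp hpair) (1 / (n + 1))
      (by positivity)
    filter_upwards [Ioo_mem_nhdsGT hδ, h1, h2] with l hl hb hd
    exact ⟨hl, hb, hd⟩
  obtain ⟨l, hball, hl, hb, hd⟩ := (hfr.and_eventually hev).exists
  refine ⟨_, hb, l, hl, fun d hdball => ?_⟩
  have hclose : ‖d - dft P.toLoc x hx l p‖ < 3 * (1 / (n + 1)) := by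
    rw [← dist_eq_norm]
    rw [mem_closedBall] at hdball
    linarith [dist_triangle4 d (TopologicalSpace.denseSeq (Rn k) i) (j.height p)
      (dft P.toLoc x hx l p), dist_comm (j.height p) (dft P.toLoc x hx l p),
      dist_comm (j.height p) (TopologicalSpace.denseSeq (Rn k) i)]
  set w : Cn k := mkC 0 (d - dft P.toLoc x hx l p) with hw
  have hwn : ‖w‖ = ‖d - dft P.toLoc x hx l p‖ := by
    rw [hw, EuclideanSpace.norm_eq, EuclideanSpace.norm_eq]
    congr 1
    exact Finset.sum_congr rfl fun i _ => by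
      rw [← Complex.normSq_eq_norm_sq, Complex.normSq_apply, mkC_re, mkC_im]
      simp [sq]
  have hp' : p + (0, j.A w) ∈ ball p ε := by
    rw [mem_ball, dist_eq_norm, add_sub_cancel_left, Prod.norm_def]
    refine max_lt (by simpa using hε) ?_
    calc ‖j.A w‖ ≤ ‖j.A‖ * ‖w‖ := j.A.le_opNorm w
      _ ≤ (‖j.A‖ + 1) * (3 * (1 / (n + 1))) := by
        rw [hwn]
        exact mul_le_mul (by linarith) hclose.le (norm_nonneg _) (by positivity)
      _ < (‖j.A‖ + 1) * (3 * (ε / (3 * (‖j.A‖ + 1)))) := by gcongr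
      _ = ε := by field_simp
  have hmem := hball _ hp'
  rw [j.Θ_add, ← lift_dft P.toLoc x hx hl.1.ne' p] at hmem
  convert hmem using 1
  refine Prod.ext (by simp [lift, hj, Jet.base]) (cn_ext ?_ ?_) <;> ext i <;>
    simp [lift, rv_apply, iv_apply, mkC_re, mkC_im, hw, hj, Jet.base, pow_two, mul_sub]

end

end Vale.Agent.P274.Full.Scaling
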