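import Vale.Agent.P274.Full.Stmts
import Vale.Agent.P274.Full.Taut.Taut
import Vale.Agent.P274.Full.Scaling.Holo

/-!
The limit of a sequence of local biholomorphisms from `U` onto growing open sets is a
biholomorphism of `U` onto the kernel.

The inverse maps are bounded, and their limit stays in `U` by tautness. The Jacobian of the limit
of the maps vanishes nowhere by Hurwitz, so small balls around its values lie in the sets
infinitely often and the values lie in the kernel.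
-/

open Filter Metric Set Function Topology

namespace Vale.Agent.P274.Full.Scaling

noncomputable section

variable {N m k : ℕ}

/-- A parametrisation of an open piece of `U`. -/
private structure Param (D : CDom N) (m k : ℕ) where
  P : Mod m k → Cn N
  q : Cn N → Mod m k
  W : Set (Mod m k)
  B : Set (Cn N)
  isOpen_W : IsOpen W
  isOpen_B : IsOpen B
  diff_P : DifferentiableOn ℂ P W
  diff_q : DifferentiableOn ℂ q B
  maps_P : ∀ x ∈ W, P x ∈ D.U ∩ B
  maps_q : ∀ z ∈ D.U ∩ B, q z ∈ W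
  q_P : ∀ x ∈ W, q (P x) = x
  P_q : ∀ z ∈ D.U ∩ B, P (q z) = z

private theorem exists_param (D : CDom N) {a : Cn N} (ha : a ∈ D.U)
    (hsm : ∀ z ∈ D.U, ∃ φ : Chart D (m + k) 0, φ.ψ 0 = z) :
    ∃ R : Param D m k, (0 : Mod m k) ∈ R.W ∧ R.P 0 = a := by
  obtain ⟨φ, hφ⟩ := hsm a ha
  let e : Mod m k ≃L[ℂ] Mod (m + k) 0 := ContinuousLinearEquiv.ofFinrankEq (by simp)
  have hU : ∀ z, z ∈ D.U ↔ z ∈ D.Z ∧ z ∈ D.O := fun z => by rw [D.U_eq, mem_inter_iff]
  refine ⟨⟨φ.ψ ∘ e, e.symm ∘ φ.π, e ⁻¹' (φ.W ∩ φ.ψ ⁻¹' D.O), φ.B ∩ D.O,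
    (φ.diff_ψ.continuousOn.isOpen_inter_preimage φ.isOpen_W D.isOpen_O).preimage e.continuous,
    φ.isOpen_B.inter D.isOpen_O, φ.diff_ψ.comp e.differentiable.differentiableOn fun x hx => hx.1,
    e.symm.differentiable.comp_differentiableOn (φ.diff_π.mono inter_subset_left),
    fun x hx => ⟨(hU _).2 ⟨(φ.maps_ψ _ hx.1).1, hx.2⟩, (φ.maps_ψ _ hx.1).2, hx.2⟩,
    fun z hz => ?_, fun x hx => by simp [φ.π_ψ _ hx.1],
    fun z hz => by simp [φ.ψ_π z ⟨((hU z).1 hz.1).1, hz.2.1⟩]⟩, ?_, by simp [hφ]⟩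
  · have h1 : z ∈ D.Z ∩ φ.B := ⟨((hU z).1 hz.1).1, hz.2.1⟩
    simp only [mem_preimage, comp_apply, ContinuousLinearEquiv.apply_symm_apply]
    exact ⟨φ.maps_π z h1, by rw [mem_preimage, φ.ψ_π z h1]; exact hz.2.2⟩
  · simp only [mem_preimage, map_zero]
    exact ⟨φ.zero_mem, by rw [mem_preimage, hφ]; exact ((hU a).1 ha).2⟩

private theorem det_ne_zero_of_comp {X : Type*} [NormedAddCommGroup X] [NormedSpace ℂ X]
    {f g : X → X} {x : X} (hf : DifferentiableAt ℂ f (g x)) (hg : DifferentiableAt ℂ g x)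
    (h : ∀ᶠ y in 𝓝 x, f (g y) = y) :
    (fderiv ℂ f (g x)).det ≠ 0 ∧ (fderiv ℂ g x).det ≠ 0 := by
  have h1 : fderiv ℂ (fun y => f (g y)) x = ContinuousLinearMap.id ℂ X := by
    rw [Filter.EventuallyEq.fderiv_eq (f := fun y : X => y) h]
    exact fderiv_fun_id
  rw [show (fun y => f (g y)) = f ∘ g from rfl, fderiv_comp x hf hg] at h1
  have h2 := congrArg ContinuousLinearMap.det h1
  simp only [ContinuousLinearMap.det, ContinuousLinearMap.toLinearMap_comp, LinearMap.det_comp,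
    ContinuousLinearMap.coe_id, LinearMap.det_id] at h2
  exact ⟨left_ne_zero_of_mul_eq_one h2, right_ne_zero_of_mul_eq_one h2⟩

/-- Tautness on a ball of the model space. -/
private theorem taut_ball (htaut : TautStmt) (D : CDom N) {p a : Mod m k} {r : ℝ} (hr : 0 < r)
    (ha : a ∈ ball p r) {K : Set (Cn N)} (hK : IsCompact K) (hKU : K ⊆ D.U) :
    ∃ K' : Set (Cn N), IsCompact K' ∧ K' ⊆ D.U ∧ ∀ φ : Mod m k → Cn N,
      DifferentiableOn ℂ φ (ball p r) → MapsTo φ (ball p r) D.U → φ a ∈ K →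
        MapsTo φ (closedBall p (r / 2)) K' := by
  let e : Cn (m + k) ≃L[ℂ] Mod m k := ContinuousLinearEquiv.ofFinrankEq (by simp)
  have hconn : IsPreconnected (e ⁻¹' ball p r) := by
    rw [← e.image_symm_eq_preimage]
    exact (convex_ball p r).isPreconnected.image _ e.symm.continuous.continuousOn
  obtain ⟨K', hK', hK'U, hmaps⟩ := htaut N D (m + k) (e ⁻¹' ball p r)
    (e.symm '' closedBall p (r / 2)) (e.symm a) K (isOpen_ball.preimage e.continuous) hconn
    ((isCompact_closedBall p (r / 2)).image e.symm.continuous) (by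
      rintro _ ⟨y, hy, rfl⟩
      rw [mem_preimage, e.apply_symm_apply]
      exact closedBall_subset_ball (by linarith) hy) (by simpa using ha) hK hKU
  refine ⟨K', hK', hK'U, fun φ hφ hm haK y hy => ?_⟩
  have h := hmaps (φ ∘ e) (hφ.comp e.differentiable.differentiableOn fun z hz => hz)
    (hm.comp fun z hz => hz) (by simpa using haK) ⟨y, hy, rfl⟩
  simpa using h

/-- The limit of the maps `f n` is biholomorphic from `U` onto `L`. -/
theorem exists_biholo (htaut : TautStmt) (D : CDom N)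
    (hsm : ∀ z ∈ D.U, ∃ φ : Chart D (m + k) 0, φ.ψ 0 = z)
    {L L' : Set (Mod m k)} (hL : IsOpen L) (hLc : IsPreconnected L) {p₀ : Mod m k} (hp₀ : p₀ ∈ L)
    (hmax : ∀ S ⊆ L', IsPreconnected S → p₀ ∈ S → S ⊆ L)
    (Ω : ℕ → Set (Mod m k)) (f : ℕ → Cn N → Mod m k) (g : ℕ → Mod m k → Cn N)
    (hΩ : ∀ n, IsOpen (Ω n)) (hp₀Ω : ∀ n, p₀ ∈ Ω n)
    (hsub : ∀ p ∈ L, ∃ r > 0, ∀ᶠ n in atTop, ball p r ⊆ Ω n)
    (hker : ∀ p, ∀ ε > 0, (∃ᶠ n in atTop, ball p ε ⊆ Ω n) → p ∈ L')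
    (hg : ∀ n, DifferentiableOn ℂ (g n) (Ω n)) (hgU : ∀ n, MapsTo (g n) (Ω n) D.U)
    (hfg : ∀ n, ∀ p ∈ Ω n, f n (g n p) = p)
    {c : Cn N} (hc : c ∈ D.U) (hg₀ : Tendsto (fun n => g n p₀) atTop (𝓝 c))
    (hf : ∀ a ∈ D.U, ∃ V ∈ 𝓝 a, ∃ M : ℝ, ∀ᶠ n in atTop, HolOn (f n) (V ∩ D.U) ∧
      ∀ z ∈ V ∩ D.U, ‖f n z‖ ≤ M ∧ f n z ∈ Ω n ∧ g n (f n z) = z) :
    ∃ (F : Cn N → Mod m k) (G : Mod m k → Cn N), HolOn F D.U ∧ MapsTo F D.U L ∧
      DifferentiableOn ℂ G L ∧ MapsTo G L D.U ∧ (∀ z ∈ D.U, G (F z) = z) ∧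
      ∀ w ∈ L, F (G w) = w := by
  classical
  set l : Ultrafilter ℕ := Ultrafilter.of atTop
  have hl : (l : Filter ℕ) ≤ atTop := Ultrafilter.of_le atTop
  obtain ⟨MU, hMU⟩ := D.bounded_U.exists_norm_le
  -- the inverse maps
  have hgball : ∀ p ∈ L, ∃ r > 0, ball p r ⊆ L ∧ ∀ᶠ n in (l : Filter ℕ),
      DifferentiableOn ℂ (g n) (ball p r) ∧ MapsTo (g n) (ball p r) D.U ∧
        ball p r ⊆ Ω n := by
    intro p hp
    obtain ⟨r, hr, hev⟩ := hsub p hp
    obtain ⟨r', hr', hsubL⟩ := Metric.isOpen_iff.1 hL p hp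
    refine ⟨min r r', lt_min hr hr', (ball_subset_ball (min_le_right _ _)).trans hsubL, ?_⟩
    filter_upwards [hev.filter_mono hl] with n hn
    have h1 : ball p (min r r') ⊆ Ω n := (ball_subset_ball (min_le_left _ _)).trans hn
    exact ⟨(hg n).mono h1, (hgU n).mono_left h1, h1⟩
  have hGex : ∀ p, ∃ y, p ∈ L → Tendsto (fun n => g n p) l (𝓝 y) := by
    intro p
    by_cases hp : p ∈ L
    · obtain ⟨r, hr, -, hev⟩ := hgball p hp
      have : ↑(l.map fun n => g n p) ≤ 𝓟 (closedBall (0 : Cn N) MU) :=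
        le_principal_iff.2 (Ultrafilter.mem_map.2 (hev.mono fun n hn => by
          simpa using hMU _ (hn.2.1 (mem_ball_self hr))))
      obtain ⟨y, -, hy⟩ := (isCompact_closedBall (0 : Cn N) MU).ultrafilter_le_nhds _ this
      exact ⟨y, fun _ => hy⟩
    · exact ⟨0, fun h => absurd h hp⟩
  choose G hG using hGex
  have hGunif : ∀ p ∈ L, ∃ r > 0, closedBall p r ⊆ L ∧
      TendstoUniformlyOn g G l (closedBall p r) ∧ DifferentiableOn ℂ G (ball p r) := by
    intro p hp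
    obtain ⟨r, hr, hrL, hev⟩ := hgball p hp
    obtain ⟨g₁, hg₁⟩ := exists_unif_limit l (M := MU) hr
      (hev.mono fun n hn => ⟨hn.1, fun y hy => hMU _ (hn.2.1 hy)⟩)
    have hsub' : closedBall p (r / 4) ⊆ L := (closedBall_subset_ball (by linarith)).trans hrL
    have hu : TendstoUniformlyOn g G l (closedBall p (r / 4)) :=
      hg₁.congr_right fun y hy => tendsto_nhds_unique (hg₁.tendsto_at hy) (hG y (hsub' hy))
    exact ⟨r / 4, by positivity, hsub', hu, differentiableOn_of_unif hu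
      (hev.mono fun n hn => hn.1.mono (ball_subset_ball (by linarith)))⟩
  have hGd : DifferentiableOn ℂ G L := by
    intro p hp
    obtain ⟨r, hr, -, -, hd⟩ := hGunif p hp
    exact (hd.differentiableAt (ball_mem_nhds p hr)).differentiableWithinAt
  have hGc : G p₀ = c := tendsto_nhds_unique (hG p₀ hp₀) (hg₀.mono_left hl)
  -- tautness keeps the limit in `U`
  set A : Set (Mod m k) := {p | ∃ s > 0, ∃ K : Set (Cn N), IsCompact K ∧ K ⊆ D.U ∧
    ∀ᶠ n in (l : Filter ℕ), MapsTo (g n) (ball p s) K} with hA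
  have hAo : IsOpen A := by
    refine isOpen_iff_mem_nhds.2 fun p hp => ?_
    obtain ⟨s, hs, K, hK, hKU, hev⟩ := hp
    refine mem_of_superset (ball_mem_nhds p (half_pos hs)) fun y hy =>
      ⟨s / 2, half_pos hs, K, hK, hKU, hev.mono fun n hn => hn.mono_left
        (ball_subset_ball' (by linarith [mem_ball.1 hy]))⟩
  have hstep : ∀ p ∈ L, ∀ r > 0, (∀ᶠ n in (l : Filter ℕ), DifferentiableOn ℂ (g n) (ball p r) ∧
      MapsTo (g n) (ball p r) D.U) → ∀ a ∈ ball p r, ∀ K : Set (Cn N), IsCompact K → K ⊆ D.U →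
      (∀ᶠ n in (l : Filter ℕ), g n a ∈ K) → p ∈ A := by
    intro p _ r hr hev a ha K hK hKU hevK
    obtain ⟨K', hK', hK'U, hmaps⟩ := taut_ball htaut D hr ha hK hKU
    refine ⟨r / 2, half_pos hr, K', hK', hK'U, ?_⟩
    filter_upwards [hev, hevK] with n hn hn'
    exact (hmaps _ hn.1 hn.2 hn').mono_left ball_subset_closedBall
  have hLA : L ⊆ A := by
    refine hLc.subset_of_closure_inter_subset hAo ⟨p₀, hp₀, ?_⟩ ?_
    · obtain ⟨r, hr, -, hev⟩ := hgball p₀ hp₀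
      refine hstep p₀ hp₀ r hr (hev.mono fun n hn => ⟨hn.1, hn.2.1⟩) p₀ (mem_ball_self hr)
        (insert c (range fun n => g n p₀)) hg₀.isCompact_insert_range ?_
        (Eventually.of_forall fun n => Or.inr ⟨n, rfl⟩)
      rintro z (rfl | ⟨n, rfl⟩)
      exacts [hc, hgU n (hp₀Ω n)]
    · rintro p ⟨hpA, hpL⟩
      obtain ⟨r, hr, -, hev⟩ := hgball p hpL
      obtain ⟨a, ⟨s, hs, K, hK, hKU, hevK⟩, hdist⟩ := Metric.mem_closure_iff.1 hpA r hr
      exact hstep p hpL r hr (hev.mono fun n hn => ⟨hn.1, hn.2.1⟩) a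
        (by rwa [mem_ball, dist_comm]) K hK hKU (hevK.mono fun n hn => hn (mem_ball_self hs))
  have hGm : MapsTo G L D.U := fun p hp => by
    obtain ⟨s, hs, K, hK, hKU, hev⟩ := hLA hp
    exact hKU (hK.isClosed.mem_of_tendsto (hG p hp) (hev.mono fun n hn => hn (mem_ball_self hs)))
  -- the maps themselves
  have hFex : ∀ z, ∃ y, z ∈ D.U → Tendsto (fun n => f n z) l (𝓝 y) := by
    intro z
    by_cases hz : z ∈ D.U
    · obtain ⟨V, hV, M, hev⟩ := hf z hz
      have : ↑(l.map fun n => f n z) ≤ 𝓟 (closedBall (0 : Mod m k) M) :=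
        le_principal_iff.2 (Ultrafilter.mem_map.2 ((hev.filter_mono hl).mono fun n hn => by
          simpa using (hn.2 z ⟨mem_of_mem_nhds hV, hz⟩).1))
      obtain ⟨y, -, hy⟩ := (isCompact_closedBall (0 : Mod m k) M).ultrafilter_le_nhds _ this
      exact ⟨y, fun _ => hy⟩
    · exact ⟨0, fun h => absurd h hz⟩
  choose F hF using hFex
  have hFunif : ∀ (R : Param D m k), ∀ x ∈ R.W, ∃ r > 0, closedBall x r ⊆ R.W ∧
      TendstoUniformlyOn (fun n => f n ∘ R.P) (F ∘ R.P) l (closedBall x r) ∧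
      DifferentiableOn ℂ (F ∘ R.P) (ball x r) ∧ ∀ᶠ n in (l : Filter ℕ),
        DifferentiableOn ℂ (f n ∘ R.P) (ball x r) ∧
        ∀ y ∈ ball x r, f n (R.P y) ∈ Ω n ∧ g n (f n (R.P y)) = R.P y := by
    intro R x hx
    obtain ⟨V, hV, M, hev⟩ := hf (R.P x) (R.maps_P x hx).1
    obtain ⟨r, hr, hrs⟩ := Metric.mem_nhds_iff.1 (inter_mem (R.isOpen_W.mem_nhds hx)
      ((R.diff_P.continuousOn.continuousAt (R.isOpen_W.mem_nhds hx)).preimage_mem_nhds hV))
    have hm : MapsTo R.P (ball x r) (V ∩ D.U) := fun y hy =>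
      ⟨(hrs hy).2, (R.maps_P y (hrs hy).1).1⟩
    have hd : ∀ᶠ n in (l : Filter ℕ), DifferentiableOn ℂ (f n ∘ R.P) (ball x r) ∧
        ∀ y ∈ ball x r, ‖f n (R.P y)‖ ≤ M ∧ f n (R.P y) ∈ Ω n ∧
          g n (f n (R.P y)) = R.P y := by
      filter_upwards [hev.filter_mono hl] with n hn
      exact ⟨hn.1.comp_differentiableOn isOpen_ball (R.diff_P.mono fun y hy => (hrs hy).1) hm,
        fun y hy => hn.2 _ (hm hy)⟩
    obtain ⟨f₁, hf₁⟩ := exists_unif_limit l (M := M) hr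
      (hd.mono fun n hn => ⟨hn.1, fun y hy => (hn.2 y hy).1⟩)
    have hsub' : closedBall x (r / 4) ⊆ R.W := fun y hy =>
      (hrs (closedBall_subset_ball (by linarith) hy)).1
    have hu : TendstoUniformlyOn (fun n => f n ∘ R.P) (F ∘ R.P) l (closedBall x (r / 4)) :=
      hf₁.congr_right fun y hy =>
        tendsto_nhds_unique (hf₁.tendsto_at hy) (hF _ (R.maps_P y (hsub' hy)).1)
    have hb : ball x (r / 4) ⊆ ball x r := ball_subset_ball (by linarith)
    exact ⟨r / 4, by positivity, hsub', hu,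
      differentiableOn_of_unif hu (hd.mono fun n hn => hn.1.mono hb),
      hd.mono fun n hn => ⟨hn.1.mono hb, fun y hy => (hn.2 y (hb hy)).2⟩⟩
  have hFhol : HolOn F D.U := by
    intro a ha
    obtain ⟨R, h0, hP⟩ := exists_param D ha hsm
    obtain ⟨r, hr, -, -, hd, -⟩ := hFunif R 0 h0
    have haB : a ∈ R.B := hP ▸ (R.maps_P 0 h0).2
    refine ⟨R.B ∩ R.q ⁻¹' ball 0 r, (F ∘ R.P) ∘ R.q,
      R.diff_q.continuousOn.isOpen_inter_preimage R.isOpen_B isOpen_ball,
      ⟨haB, by rw [mem_preimage, ← hP, R.q_P 0 h0]; exact mem_ball_self hr⟩,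
      hd.comp (R.diff_q.mono inter_subset_left) fun z hz => hz.2, fun z hz => ?_⟩
    simp [R.P_q z ⟨hz.2, hz.1.1⟩]
  have hFG : ∀ p ∈ L, F (G p) = p := by
    intro p hp
    obtain ⟨R, h0, hP⟩ := exists_param D (hGm hp) hsm
    obtain ⟨r, hr, -, hu, hd, -⟩ := hFunif R 0 h0
    obtain ⟨s, hs, -, hev⟩ := hgball p hp
    have hB : G p ∈ R.B := hP ▸ (R.maps_P 0 h0).2
    have hq : Tendsto (fun n => R.q (g n p)) l (𝓝 0) := by
      have := ((R.diff_q.continuousOn.continuousAt (R.isOpen_B.mem_nhds hB)).tendsto).comp (hG p hp)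
      rwa [show R.q (G p) = 0 by rw [← hP, R.q_P 0 h0]] at this
    have h1 : Tendsto (fun n => (f n ∘ R.P) (R.q (g n p))) l (𝓝 ((F ∘ R.P) 0)) :=
      hu.tendsto_comp (hd.continuousOn.continuousAt (ball_mem_nhds 0 hr)).continuousWithinAt
        (tendsto_nhdsWithin_iff.2 ⟨hq, hq.eventually_mem (closedBall_mem_nhds 0 hr)⟩)
    rw [comp_apply, hP] at h1
    refine tendsto_nhds_unique h1 (tendsto_const_nhds.congr' ?_)
    filter_upwards [hev, (hG p hp).eventually_mem (R.isOpen_B.mem_nhds hB)] with n hn hnB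
    rw [comp_apply, R.P_q _ ⟨hn.2.1 (mem_ball_self hs), hnB⟩,
      hfg n p (hn.2.2 (mem_ball_self hs))]
  -- the Jacobian is nonzero at every point
  set T : Cn N → Prop := fun z => ∀ (R : Param D m k), ∀ x ∈ R.W, R.P x = z →
    (fderiv ℂ (F ∘ R.P) x).det ≠ 0 with hT
  have hdiff : ∀ (R : Param D m k), ∀ x ∈ R.W, DifferentiableAt ℂ (F ∘ R.P) x := fun R x hx => by
    obtain ⟨r, hr, -, -, hd, -⟩ := hFunif R x hx
    exact hd.differentiableAt (ball_mem_nhds x hr)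
  have hindep : ∀ (R R' : Param D m k), ∀ x ∈ R.W, ∀ x' ∈ R'.W, R.P x = R'.P x' →
      (fderiv ℂ (F ∘ R'.P) x').det ≠ 0 → (fderiv ℂ (F ∘ R.P) x).det ≠ 0 := by
    intro R R' x hx x' hx' heq hne
    have hB' : R.P x ∈ R'.B := heq ▸ (R'.maps_P x' hx').2
    have hB : R'.P x' ∈ R.B := heq ▸ (R.maps_P x hx).2
    have hτ : DifferentiableAt ℂ (R'.q ∘ R.P) x :=
      (R'.diff_q.differentiableAt (R'.isOpen_B.mem_nhds hB')).comp x
        (R.diff_P.differentiableAt (R.isOpen_W.mem_nhds hx))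
    have hτ' : DifferentiableAt ℂ (R.q ∘ R'.P) x' :=
      (R.diff_q.differentiableAt (R.isOpen_B.mem_nhds hB)).comp x'
        (R'.diff_P.differentiableAt (R'.isOpen_W.mem_nhds hx'))
    have hτx : (R'.q ∘ R.P) x = x' := by simp [heq, R'.q_P x' hx']
    have hnear : ∀ᶠ y in 𝓝 x, y ∈ R.W ∧ R.P y ∈ R'.B :=
      (show ∀ᶠ y in 𝓝 x, y ∈ R.W from R.isOpen_W.mem_nhds hx).and
        ((R.diff_P.continuousOn.continuousAt (R.isOpen_W.mem_nhds hx)).eventually_mem
          (R'.isOpen_B.mem_nhds hB'))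
    have h1 := det_ne_zero_of_comp (f := R.q ∘ R'.P) (g := R'.q ∘ R.P) (x := x)
      (by rw [hτx]; exact hτ') hτ (hnear.mono fun y hy => by
        simp [R'.P_q _ ⟨(R.maps_P y hy.1).1, hy.2⟩, R.q_P y hy.1])
    have h2 : fderiv ℂ (F ∘ R.P) x = fderiv ℂ ((F ∘ R'.P) ∘ (R'.q ∘ R.P)) x :=
      Filter.EventuallyEq.fderiv_eq (hnear.mono fun y hy => by
        simp [R'.P_q _ ⟨(R.maps_P y hy.1).1, hy.2⟩])
    rw [h2, fderiv_comp x (by rw [hτx]; exact hdiff R' x' hx') hτ, hτx]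
    simp only [ContinuousLinearMap.det, ContinuousLinearMap.toLinearMap_comp,
      LinearMap.det_comp]
    exact mul_ne_zero hne h1.2
  have hlocal : ∀ z ∈ D.U, ∃ V ∈ 𝓝 z, (∀ y ∈ V ∩ D.U, T y) ∨ ∀ y ∈ V ∩ D.U, ¬ T y := by
    intro z hz
    obtain ⟨R, h0, hP⟩ := exists_param D hz hsm
    obtain ⟨r, hr, hrW, hu, hd, hev⟩ := hFunif R 0 h0
    have hb : ball (0 : Mod m k) r ⊆ R.W := ball_subset_closedBall.trans hrW
    obtain ⟨σ, hσ, huσ⟩ := exists_seq_of_unif hu hev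
    have hdet : ∀ n, ∀ y ∈ ball (0 : Mod m k) r, (fderiv ℂ (f (σ n) ∘ R.P) y).det ≠ 0 := by
      intro n y hy
      obtain ⟨hyΩ, hgy⟩ := (hσ n).2 y hy
      refine (det_ne_zero_of_comp (f := fun w => R.q (g (σ n) w)) ?_
        ((hσ n).1.differentiableAt (isOpen_ball.mem_nhds hy)) ?_).2
      · refine DifferentiableAt.comp _ (R.diff_q.differentiableAt (R.isOpen_B.mem_nhds ?_))
          ((hg (σ n)).differentiableAt ((hΩ (σ n)).mem_nhds hyΩ))
        simp only [comp_apply, hgy]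
        exact (R.maps_P y (hb hy)).2
      · filter_upwards [isOpen_ball.mem_nhds hy] with w hw
        simp only [comp_apply, ((hσ n).2 w hw).2, R.q_P w (hb hw)]
    set h : Mod m k → ℂ := fun y => (fderiv ℂ (F ∘ R.P) y).det
    have hr2 : ball (0 : Mod m k) (r / 2) ⊆ ball 0 r := ball_subset_ball (by linarith)
    have hud := unif_fderiv hr huσ (Eventually.of_forall fun n => (hσ n).1) hd
    have hlim : TendstoLocallyUniformlyOn (fun n y => (fderiv ℂ (f (σ n) ∘ R.P) y).det) h atTop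
        (ball 0 (r / 2)) := by
      refine Metric.tendstoLocallyUniformlyOn_iff.2 fun ε hε y hy => ?_
      obtain ⟨δ, hδ, hδ'⟩ := Metric.continuousAt_iff.1
        (ContinuousLinearMap.continuous_det.continuousAt (x := fderiv ℂ (F ∘ R.P) y))
        (ε / 2) (half_pos hε)
      have hcont : ∀ᶠ w in 𝓝 y, dist (fderiv ℂ (F ∘ R.P) w) (fderiv ℂ (F ∘ R.P) y) < δ / 2 :=
        Metric.tendsto_nhds.1 ((Surface.continuousOn_fderiv isOpen_ball hd).continuousAt
          (isOpen_ball.mem_nhds (hr2 hy))) _ (half_pos hδ)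
      refine ⟨_, inter_mem (mem_nhdsWithin_of_mem_nhds hcont) self_mem_nhdsWithin, ?_⟩
      filter_upwards [Metric.tendstoUniformlyOn_iff.1 hud (δ / 2) (half_pos hδ)] with n hn
      rintro w ⟨hw, hwb⟩
      have h1 := hn w (ball_subset_closedBall hwb)
      have hw' : dist (fderiv ℂ (F ∘ R.P) w) (fderiv ℂ (F ∘ R.P) y) < δ / 2 := hw
      have h3 := dist_triangle (fderiv ℂ (f (σ n) ∘ R.P) w) (fderiv ℂ (F ∘ R.P) w)
        (fderiv ℂ (F ∘ R.P) y)
      rw [dist_comm] at h1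
      have e1 := hδ' (x := fderiv ℂ (f (σ n) ∘ R.P) w) (by linarith)
      have e2 := hδ' (x := fderiv ℂ (F ∘ R.P) w) (by linarith)
      calc dist (h w) _ ≤ _ := dist_triangle_right _ _ _
        _ < ε := by linarith
    have hhd : DifferentiableOn ℂ h (ball 0 (r / 2)) :=
      (differentiableOn_det isOpen_ball hd).mono hr2
    have hne : ∀ y ∈ ball (0 : Mod m k) (r / 2), ∃ s > 0, ∀ᶠ n in atTop,
        DifferentiableOn ℂ (fun y => (fderiv ℂ (f (σ n) ∘ R.P) y).det) (ball y s) ∧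
        ∀ w ∈ ball y s, (fderiv ℂ (f (σ n) ∘ R.P) w).det ≠ 0 := fun y hy => by
      obtain ⟨s, hs, hsr⟩ := Metric.isOpen_iff.1 isOpen_ball y (hr2 hy)
      exact ⟨s, hs, Eventually.of_forall fun n =>
        ⟨(differentiableOn_det isOpen_ball (hσ n).1).mono hsr, fun w hw => hdet n w (hsr hw)⟩⟩
    have hzB : z ∈ R.B := hP ▸ (R.maps_P 0 h0).2
    refine ⟨R.B ∩ R.q ⁻¹' ball 0 (r / 2),
      (R.diff_q.continuousOn.isOpen_inter_preimage R.isOpen_B isOpen_ball).mem_nhds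
        ⟨hzB, by rw [mem_preimage, ← hP, R.q_P 0 h0]; exact mem_ball_self (half_pos hr)⟩, ?_⟩
    by_cases h0' : ∃ y ∈ ball (0 : Mod m k) (r / 2), h y = 0
    · right
      obtain ⟨y₁, hy₁, hy₁0⟩ := h0'
      have hzero := hurwitz isOpen_ball (by
        let : NormedSpace ℝ (Mod m k) := NormedSpace.restrictScalars ℝ ℂ (Mod m k)
        exact (convex_ball (0 : Mod m k) (r / 2)).isPreconnected) hlim hhd hne hy₁ hy₁0
      rintro y ⟨⟨hyB, hyq⟩, hyU⟩ hTy
      exact hTy R (R.q y) (R.maps_q y ⟨hyU, hyB⟩) (R.P_q y ⟨hyU, hyB⟩) (hzero _ hyq)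
    · left
      rintro y ⟨⟨hyB, hyq⟩, hyU⟩ R' x hx hxy
      exact hindep R' R x hx _ (R.maps_q y ⟨hyU, hyB⟩) (hxy.trans (R.P_q y ⟨hyU, hyB⟩).symm)
        fun h1 => h0' ⟨_, hyq, h1⟩
  have hTc : T c := by
    obtain ⟨R, h0, hP⟩ := exists_param D hc hsm
    have hcB : G p₀ ∈ R.B := by rw [hGc, ← hP]; exact (R.maps_P 0 h0).2
    have hγ : DifferentiableAt ℂ (fun w => R.q (G w)) p₀ :=
      (R.diff_q.differentiableAt (R.isOpen_B.mem_nhds hcB)).comp p₀
        (hGd.differentiableAt (hL.mem_nhds hp₀))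
    have hγ0 : R.q (G p₀) = 0 := by rw [hGc, ← hP, R.q_P 0 h0]
    have h1 := det_ne_zero_of_comp (f := F ∘ R.P) (g := fun w => R.q (G w)) (x := p₀)
      (by rw [hγ0]; exact hdiff R 0 h0) hγ (by
        filter_upwards [hL.mem_nhds hp₀,
          (hGd.continuousOn.continuousAt (hL.mem_nhds hp₀)).eventually_mem
            (R.isOpen_B.mem_nhds hcB)] with w hwL hwB
        simp [R.P_q _ ⟨hGm hwL, hwB⟩, hFG w hwL])
    rw [hγ0] at h1
    exact fun R' x hx hxc => hindep R' R x hx 0 h0 (hxc.trans hP.symm) h1.1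
  have hTall : ∀ z ∈ D.U, T z := by
    intro z hz
    by_contra hTz
    obtain ⟨w, hwU, ⟨V, hV, hwV, hTV⟩, ⟨V', hV', hwV', hTV'⟩⟩ :=
      D.connected_U.isPreconnected
        {y | ∃ V, IsOpen V ∧ y ∈ V ∧ ∀ x ∈ V ∩ D.U, T x}
        {y | ∃ V, IsOpen V ∧ y ∈ V ∧ ∀ x ∈ V ∩ D.U, ¬ T x}
        (isOpen_iff_mem_nhds.2 fun y ⟨V, hV, hy, h⟩ =>
          mem_of_superset (hV.mem_nhds hy) fun x hx => ⟨V, hV, hx, h⟩)
        (isOpen_iff_mem_nhds.2 fun y ⟨V, hV, hy, h⟩ =>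
          mem_of_superset (hV.mem_nhds hy) fun x hx => ⟨V, hV, hx, h⟩)
        (fun y hy => by
          obtain ⟨V, hV, h⟩ := hlocal y hy
          obtain ⟨W, hWV, hW, hyW⟩ := _root_.mem_nhds_iff.1 hV
          rcases h with h | h
          · exact Or.inl ⟨W, hW, hyW, fun x hx => h x ⟨hWV hx.1, hx.2⟩⟩
          · exact Or.inr ⟨W, hW, hyW, fun x hx => h x ⟨hWV hx.1, hx.2⟩⟩)
        ⟨c, hc, by
          obtain ⟨V, hV, h⟩ := hlocal c hc
          obtain ⟨W, hWV, hW, hcW⟩ := _root_.mem_nhds_iff.1 hV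
          rcases h with h | h
          · exact ⟨W, hW, hcW, fun x hx => h x ⟨hWV hx.1, hx.2⟩⟩
          · exact absurd hTc (h c ⟨mem_of_mem_nhds hV, hc⟩)⟩
        ⟨z, hz, by
          obtain ⟨V, hV, h⟩ := hlocal z hz
          obtain ⟨W, hWV, hW, hzW⟩ := _root_.mem_nhds_iff.1 hV
          rcases h with h | h
          · exact absurd (h z ⟨mem_of_mem_nhds hV, hz⟩) hTz
          · exact ⟨W, hW, hzW, fun x hx => h x ⟨hWV hx.1, hx.2⟩⟩⟩
    exact hTV' w ⟨hwV', hwU⟩ (hTV w ⟨hwV, hwU⟩)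
  -- hence the values are in the kernel
  have hFL' : MapsTo F D.U L' := by
    intro z hz
    obtain ⟨R, h0, hP⟩ := exists_param D hz hsm
    obtain ⟨r, hr, hrW, hu, hd, hev⟩ := hFunif R 0 h0
    set h := F ∘ R.P
    have hne0 : (fderiv ℂ h 0).det ≠ 0 := hTall z hz R 0 h0 hP
    have hstr := Surface.hasStrictFDerivAt isOpen_ball hd (mem_ball_self hr)
    let e := ((LinearMap.equivOfDetNeZero (fderiv ℂ h 0 : Mod m k →ₗ[ℂ] Mod m k)
      hne0)).toContinuousLinearEquiv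
    have he : (e : Mod m k →L[ℂ] Mod m k) = fderiv ℂ h 0 := by
      ext v <;> rfl
    have hstr' : HasStrictFDerivAt h (e : Mod m k →L[ℂ] Mod m k) 0 := by
      rw [he]
      exact hstr
    obtain ⟨s₀, hs₀, hs₀'⟩ := Metric.mem_nhds_iff.1
      ((hstr'.toOpenPartialHomeomorph h).open_source.mem_nhds
        hstr'.mem_toOpenPartialHomeomorph_source)
    set s := min (r / 4) (s₀ / 2) with hs
    have hspos : 0 < s := lt_min (by positivity) (by positivity)
    have hsr : s ≤ r / 4 := min_le_left _ _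
    have hcl : closedBall (0 : Mod m k) s ⊆ ball 0 r := closedBall_subset_ball (by linarith)
    have hne : ∀ y ∈ sphere (0 : Mod m k) s, h y ≠ h 0 := fun y hy he => by
      have h1 : y = 0 := (hstr'.toOpenPartialHomeomorph h).injOn
        (hs₀' (mem_ball.2 (by rw [mem_sphere.1 hy]; linarith [min_le_right (r / 4) (s₀ / 2)])))
        (hs₀' (mem_ball_self hs₀)) (by simpa using he)
      rw [h1, mem_sphere, dist_self] at hy
      linarith
    obtain ⟨δ, hδ, hδ'⟩ : ∃ δ > 0, ∀ y ∈ sphere (0 : Mod m k) s, δ ≤ ‖h y - h 0‖ := by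
      rcases (sphere (0 : Mod m k) s).eq_empty_or_nonempty with he | he
      · exact ⟨1, one_pos, by simp [he]⟩
      obtain ⟨y₀, hy₀, hmin⟩ := (isCompact_sphere (0 : Mod m k) s).exists_isMinOn he
        (((hd.continuousOn.mono (sphere_subset_closedBall.trans hcl)).sub
          continuousOn_const).norm)
      exact ⟨_, norm_pos_iff.2 (sub_ne_zero.2 (hne y₀ hy₀)), fun y hy => hmin hy⟩
    refine hker _ (δ / 2) (half_pos hδ) ((?_ : ∀ᶠ n in (l : Filter ℕ), _).frequently.filter_mono hl)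
    filter_upwards [hev, Metric.tendstoUniformlyOn_iff.1 hu (δ / 4) (by positivity)] with n hn hn'
    have hz' : F z = h 0 := by simp [h, hP]
    rw [hz']
    have hc0 := hn' 0 (mem_closedBall_self hr.le)
    refine (ball_subset_image (p := h 0) (ε := δ / 2) hspos (hn.1.mono (ball_subset_ball (by linarith))) ?_ ?_
      ?_).trans ?_
    · intro y hy
      have hyr : y ∈ ball (0 : Mod m k) r := hcl (ball_subset_closedBall hy)
      obtain ⟨hyΩ, hgy⟩ := hn.2 y hyr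
      refine (det_ne_zero_of_comp (f := fun w => R.q (g n w)) ?_
        (hn.1.differentiableAt (isOpen_ball.mem_nhds hyr)) ?_).2
      · refine DifferentiableAt.comp _ (R.diff_q.differentiableAt (R.isOpen_B.mem_nhds ?_))
          ((hg n).differentiableAt ((hΩ n).mem_nhds hyΩ))
        simp only [comp_apply, hgy]
        exact (R.maps_P y (hrW (ball_subset_closedBall hyr))).2
      · filter_upwards [isOpen_ball.mem_nhds hyr] with w hw
        simp only [comp_apply, (hn.2 w hw).2, R.q_P w (hrW (ball_subset_closedBall hw))]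
    · rw [mem_ball, dist_comm]
      exact lt_of_lt_of_le hc0 (by linarith)
    · intro y hy hyb
      have h1 := hn' y (closedBall_subset_closedBall (by linarith) (sphere_subset_closedBall hy))
      have h2 := hδ' y hy
      rw [← dist_eq_norm] at h2
      linarith [dist_triangle (h y) ((f n ∘ R.P) y) (h 0), mem_ball.1 hyb]
    · rintro _ ⟨y, hy, rfl⟩
      exact (hn.2 y (hcl hy)).1
  have hFm : MapsTo F D.U L := by
    have hS : IsPreconnected (F '' D.U) :=
      D.connected_U.isPreconnected.image F hFhol.continuousOn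
    intro z hz
    exact hmax _ hFL'.image_subset hS ⟨c, hc, by rw [← hGc, hFG p₀ hp₀]⟩ ⟨z, hz, rfl⟩
  refine ⟨F, G, hFhol, hFm, hGd, hGm, fun z hz => ?_, hFG⟩
  obtain ⟨R, h0, hP⟩ := exists_param D hz hsm
  obtain ⟨r, hr, -, -, -, hev⟩ := hFunif R 0 h0
  obtain ⟨r', hr', -, hu', hd'⟩ := hGunif (F z) (hFm hz)
  have h1 : Tendsto (fun n => g n (f n z)) l (𝓝 (G (F z))) :=
    hu'.tendsto_comp (hd'.continuousOn.continuousAt (ball_mem_nhds _ hr')).continuousWithinAt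
      (tendsto_nhdsWithin_iff.2 ⟨hF z hz, (hF z hz).eventually_mem (closedBall_mem_nhds _ hr')⟩)
  refine tendsto_nhds_unique h1 (tendsto_const_nhds.congr' ?_)
  filter_upwards [hev] with n hn
  have := (hn.2 0 (mem_ball_self hr)).2
  rw [hP] at this
  exact this.symm

end

end Vale.Agent.P274.Full.Scaling
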