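import Vale.Agent.P274.Full.Scaling.Coord
import Vale.Agent.P274.Full.Scaling.Holo
import Mathlib.LinearAlgebra.FreeModule.Finite.Matrix
import Mathlib.LinearAlgebra.LinearIndependent.Lemmas

/-!
Peak functions in weighted coordinates: their first derivatives, and bounds on scaled coordinates
of points where they are small.
-/

open Filter Metric Set Topology

namespace Vale.Agent.P274.Full.Scaling

noncomputable section

variable {m k : ℕ}

namespace Jet

variable (j : Jet m k)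

/-- The point of the edge. -/
def pt : Mod m k := (j.z₀, j.w₀)

theorem tendsto_Θ (p : Mod m k) : Tendsto (fun l : ℝ => j.Θ l p) (𝓝 0) (𝓝 j.pt) := by
  have hc : Continuous fun l : ℝ => j.Θ l p := by
    unfold Θ
    exact continuous_const.add (j.lin.continuous.comp (Continuous.prodMk (by fun_prop) (by fun_prop)))
  simpa [Θ, pt, Prod.mk_zero_zero] using hc.tendsto (0 : ℝ)

/-- The derivative of a function at the point of the edge, in the variable `ω`. -/
def der (G : Mod m k → ℂ) : Cn k →L[ℂ] ℂ :=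
  (fderiv ℂ G j.pt).comp (j.lin.comp (ContinuousLinearMap.inr ℂ (Cn m) (Cn k)))

theorem der_apply (G : Mod m k → ℂ) (w : Cn k) :
    j.der G w = fderiv ℂ G j.pt (j.lin (0, w)) := rfl

/-- The conormal of a function. -/
def nu (G : Mod m k → ℂ) : Rn k →L[ℝ] ℝ :=
  LinearMap.toContinuousLinearMap
    { toFun := fun v => -(j.der G (mkC 0 v)).re
      map_add' := fun a b => by
        rw [show mkC (0 : Rn k) (a + b) = mkC 0 a + mkC 0 b from
          cn_ext (by ext i; simp [rv_apply, mkC_re]) (by ext i; simp [iv_apply, mkC_im]),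
          map_add, Complex.add_re]
        ring
      map_smul' := fun c a => by
        rw [show mkC (0 : Rn k) (c • a) = (c : ℂ) • mkC 0 a from
          cn_ext (by ext i; simp [rv_apply, mkC_re, mkC_im]) (by ext i; simp [iv_apply, mkC_re, mkC_im]),
          map_smul, smul_eq_mul, Complex.re_ofReal_mul]
        simp [mul_neg] }

theorem nu_apply (G : Mod m k → ℂ) (v : Rn k) : j.nu G v = -(j.der G (mkC 0 v)).re := rfl

/-- First derivatives of a function which is nonpositive on the scaled tube over `C`. -/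
theorem peak_deriv {G : Mod m k → ℂ} (hG : DifferentiableAt ℂ G j.pt) (hG0 : G j.pt = 0)
    {C : Set (Rn k)} (hC : C.Nonempty)
    (hle : ∀ a u, ∀ v ∈ C, ∀ᶠ l in 𝓝[>] (0 : ℝ),
      (G (j.Θ l (a, mkC u (v + j.H a a)))).re ≤ 0) :
    (∀ ζ ω, fderiv ℂ G j.pt (j.lin (ζ, ω)) = j.der G ω) ∧
      (∀ w, j.der G w = (⟨-j.nu G (iv w), j.nu G (rv w)⟩ : ℂ)) ∧ ∀ v ∈ C, 0 ≤ j.nu G v := by
  set μ := fderiv ℂ G j.pt with hμ
  have hd : HasFDerivWithinAt G μ univ j.pt := hG.hasFDerivAt.hasFDerivWithinAt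
  have hl0 : Tendsto (fun l : ℝ => (l : ℂ)) (𝓝[>] 0) (𝓝 0) := by
    simpa using (Complex.continuous_ofReal.tendsto 0).mono_left nhdsWithin_le_nhds
  have hneg : ∀ (p : Mod m k) (n : ℕ) (v : Mod m k),
      Tendsto (fun l : ℝ => ((l : ℂ) ^ n)⁻¹ • (j.Θ l p - j.pt)) (𝓝[>] 0) (𝓝 v) →
      (∀ᶠ l in 𝓝[>] (0 : ℝ), (G (j.Θ l p)).re ≤ 0) → (μ v).re ≤ 0 := by
    intro p n v hv hev
    have h := hd.lim (c := fun l : ℝ => ((l : ℂ) ^ n)⁻¹) (d := fun l => j.Θ l p - j.pt)
      (by simpa using ((j.tendsto_Θ p).mono_left nhdsWithin_le_nhds).sub_const j.pt)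
      (Eventually.of_forall fun _ => mem_univ _) hv
    refine le_of_tendsto ((Complex.continuous_re.tendsto _).comp h) ?_
    filter_upwards [hev, self_mem_nhdsWithin] with l hl (hlpos : 0 < l)
    simp only [Function.comp_apply, add_sub_cancel, hG0, sub_zero, smul_eq_mul]
    rw [← Complex.ofReal_pow, ← Complex.ofReal_inv, Complex.re_ofReal_mul]
    exact mul_nonpos_of_nonneg_of_nonpos (by positivity) hl
  obtain ⟨v₀, hv₀⟩ := hC
  have hfirst : ∀ a, (μ (j.lin (a, 0))).re ≤ 0 := by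
    intro a
    refine hneg (a, mkC 0 (v₀ + j.H a a)) 1 _ ?_ (hle a 0 v₀ hv₀)
    have hc : Continuous fun s : ℂ =>
        j.lin (a, s • (mkC 0 (v₀ + j.H a a) + j.q2 a a)) :=
      j.lin.continuous.comp (Continuous.prodMk continuous_const
        (continuous_id.smul continuous_const))
    have h := (hc.tendsto 0).comp hl0
    rw [zero_smul] at h
    refine h.congr' ?_
    filter_upwards [self_mem_nhdsWithin] with l (hl : 0 < l)
    have hl' : (l : ℂ) ≠ 0 := Complex.ofReal_ne_zero.2 hl.ne'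
    simp only [Function.comp_apply, Jet.Θ, Jet.pt, add_sub_cancel_left, pow_one]
    rw [← map_smul, Prod.smul_mk, inv_smul_smul₀ hl', smul_smul, sq,
      inv_mul_cancel_left₀ hl']
  have hzero : ∀ a, μ (j.lin (a, 0)) = 0 := by
    intro a
    have h1 := hfirst a
    have h2 := hfirst (-a)
    have h3 := hfirst (Complex.I • a)
    have h4 := hfirst (-(Complex.I • a))
    rw [show ((-a, 0) : Mod m k) = -(a, 0) by simp, map_neg, map_neg, Complex.neg_re] at h2
    rw [show ((-(Complex.I • a), 0) : Mod m k) = -(Complex.I • (a, 0)) by simp, map_neg, map_neg,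
      map_smul, map_smul, smul_eq_mul, Complex.neg_re, Complex.I_mul_re] at h4
    rw [show ((Complex.I • a, 0) : Mod m k) = Complex.I • (a, 0) by simp, map_smul, map_smul,
      smul_eq_mul, Complex.I_mul_re] at h3
    exact Complex.ext (by simp; linarith) (by simp; linarith)
  have hsplit : ∀ ζ ω, μ (j.lin (ζ, ω)) = j.der G ω := fun ζ ω => by
    rw [show ((ζ, ω) : Mod m k) = (ζ, 0) + (0, ω) by simp, map_add, map_add, hzero, zero_add]
    rfl
  have hsecond : ∀ u, ∀ v ∈ C, (j.der G (mkC u v)).re ≤ 0 := by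
    intro u v hv
    refine hneg (0, mkC u v) 2 (j.lin (0, mkC u v)) ?_ (by simpa using hle 0 u v hv)
    refine tendsto_const_nhds.congr' ?_
    filter_upwards [self_mem_nhdsWithin] with l (hl : 0 < l)
    have hl' : (l : ℂ) ≠ 0 := Complex.ofReal_ne_zero.2 hl.ne'
    simp only [Jet.Θ, Jet.pt, add_sub_cancel_left, smul_zero, map_zero, add_zero]
    rw [← map_smul, Prod.smul_mk, smul_zero, inv_smul_smul₀ (pow_ne_zero 2 hl')]
  have hreal : ∀ u, (j.der G (mkC u 0)).re = 0 := by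
    intro u
    by_contra hne
    set r := (j.der G (mkC u 0)).re with hr
    set t : ℝ := (1 + j.nu G v₀) / r with ht
    have h := hsecond (t • u) v₀ hv₀
    rw [show mkC (t • u) v₀ = (t : ℂ) • mkC u 0 + mkC 0 v₀ from
      cn_ext (by ext i; simp [rv_apply, mkC_re, mkC_im])
        (by ext i; simp [iv_apply, mkC_re, mkC_im]),
      map_add, map_smul, smul_eq_mul, Complex.add_re, Complex.re_ofReal_mul, ← hr, ht,
      div_mul_cancel₀ _ hne] at h
    rw [nu_apply] at h
    linarith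
  have hform : ∀ w, j.der G w = (⟨-j.nu G (iv w), j.nu G (rv w)⟩ : ℂ) := by
    intro w
    have hre : ∀ w, (j.der G w).re = -j.nu G (iv w) := fun w => by
      conv_lhs => rw [show w = mkC (rv w) 0 + mkC 0 (iv w) from
        cn_ext (by ext i; simp [rv_apply, mkC_re]) (by ext i; simp [iv_apply, mkC_im])]
      rw [map_add, Complex.add_re, hreal, nu_apply]
      ring
    refine Complex.ext (hre w) ?_
    have h := hre (Complex.I • w)
    rw [map_smul, smul_eq_mul, Complex.I_mul_re,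
      show iv (Complex.I • w) = rv w by ext i; simp [iv_apply, rv_apply]] at h
    exact neg_injective h
  refine ⟨hsplit, hform, fun v hv => ?_⟩
  rw [nu_apply]
  linarith [hsecond 0 v hv]

variable {ι : Type*}

theorem linearIndependent_der {G : ι → Mod m k → ℂ}
    (hli : LinearIndependent ℂ fun i => fderiv ℂ (G i) j.pt)
    (hsplit : ∀ i ζ ω, fderiv ℂ (G i) j.pt (j.lin (ζ, ω)) = j.der (G i) ω) :
    LinearIndependent ℂ fun i => j.der (G i) := by
  rw [linearIndependent_iff'] at hli ⊢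
  intro s g hg i hi
  refine hli s g (ContinuousLinearMap.ext fun y => ?_) i hi
  have hy : y = j.lin ((j.Θi 1 (y + j.pt)).1, (j.Θi 1 (y + j.pt)).2 +
      j.q2 (j.Θi 1 (y + j.pt)).1 (j.Θi 1 (y + j.pt)).1) := by
    have h := j.Θ_Θi one_ne_zero (y + j.pt)
    simp only [Jet.Θ, Complex.ofReal_one, one_smul, one_pow] at h
    exact (add_left_cancel (a := j.pt) (h.trans (add_comm y j.pt))).symm
  rw [hy]
  simp only [sum_apply, smul_apply, zero_apply, hsplit]
  simpa only [sum_apply, smul_apply, zero_apply] using congrArg (fun T : Cn k →L[ℂ] ℂ => T _) hg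

theorem linearIndependent_nu {G : ι → Mod m k → ℂ}
    (hli : LinearIndependent ℂ fun i => j.der (G i))
    (hform : ∀ i w, j.der (G i) w = (⟨-j.nu (G i) (iv w), j.nu (G i) (rv w)⟩ : ℂ)) :
    LinearIndependent ℝ fun i => j.nu (G i) := by
  rw [linearIndependent_iff'] at hli ⊢
  intro s g hg i hi
  have hz : ∀ v, ∑ i ∈ s, g i * j.nu (G i) v = 0 := fun v => by
    simpa [sum_apply, smul_apply] using congrArg (fun T : Rn k →L[ℝ] ℝ => T v) hg
  have := hli s (fun i => (g i : ℂ)) (ContinuousLinearMap.ext fun w => ?_) i hi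
  · exact_mod_cast this
  simp only [sum_apply, smul_apply, zero_apply, hform, smul_eq_mul]
  refine Complex.ext ?_ ?_
  · simp [Complex.re_sum, hz]
  · simp [Complex.im_sum, hz]

/-- Independent functionals separate points. -/
theorem ker_eq_bot (φ : Fin k → Cn k →L[ℂ] ℂ) (hli : LinearIndependent ℂ φ) :
    LinearMap.ker (LinearMap.pi fun i => (φ i : Cn k →ₗ[ℂ] ℂ)) = ⊥ := by
  have hli' : LinearIndependent ℂ fun i => (φ i : Cn k →ₗ[ℂ] ℂ) :=
    hli.map' (ContinuousLinearMap.coeLM ℂ) (LinearMap.ker_eq_bot.2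
      ContinuousLinearMap.coe_injective)
  have hspan := hli'.span_eq_top_of_card_eq_finrank'
    (by rw [Module.finrank_linearMap_self, finrank_euclideanSpace_fin, Fintype.card_fin])
  refine (Submodule.eq_bot_iff _).2 fun w hw => ?_
  have hker : Submodule.span ℂ (range fun i => (φ i : Cn k →ₗ[ℂ] ℂ)) ≤
      LinearMap.ker (LinearMap.applyₗ w) := by
    rw [Submodule.span_le]
    rintro _ ⟨i, rfl⟩
    simpa using congrFun (LinearMap.mem_ker.1 hw) i
  rw [hspan, top_le_iff, LinearMap.ker_eq_top] at hker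
  refine PiLp.ext fun i => ?_
  simpa using congrArg (fun T : (Cn k →ₗ[ℂ] ℂ) →ₗ[ℂ] ℂ =>
    T (EuclideanSpace.proj i : Cn k →L[ℂ] ℂ).toLinearMap) hker

theorem norm_fst_lin_smul {l : ℝ} (hl : 0 < l) (a : Cn m) (w : Cn k) :
    ‖(j.lin ((l : ℂ) • a, w)).1‖ = l * ‖a‖ := by
  rw [j.lin_apply, norm_smul, Complex.norm_real, Real.norm_eq_abs, abs_of_pos hl]

/-- Points where all peak functions are `O(l²)` have bounded scaled coordinates. -/
theorem exists_bound {W : Set (Mod m k)} (hW : IsOpen W) (hpt : j.pt ∈ W)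
    (G : Fin k → Mod m k → ℂ) (hd : ∀ i, DifferentiableOn ℂ (G i) W) (hG0 : ∀ i, G i j.pt = 0)
    (hli : LinearIndependent ℂ fun i => fderiv ℂ (G i) j.pt)
    (hsplit : ∀ i ζ ω, fderiv ℂ (G i) j.pt (j.lin (ζ, ω)) = j.der (G i) ω) (hk : 0 < k)
    {c : ℝ} (hc : 0 < c) :
    ∃ R > 0, ∀ C : ℝ, ∃ M : ℝ, ∀ (l : ℝ) (y : Mod m k), 0 < l → y ∈ ball j.pt R →
      (∀ i, (G i y).re ≤ -c * ‖y - j.pt‖ ^ 2) → (∀ i, ‖G i y‖ ≤ C * l ^ 2) →
      ‖j.Θi l y‖ ≤ M := by
  have : ProperSpace (Mod m k) := FiniteDimensional.proper ℂ _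
  obtain ⟨r, hr, hrW⟩ := Metric.nhds_basis_closedBall.mem_iff.1 (hW.mem_nhds hpt)
  have hbd : ∀ i, ∃ K : ℝ, ∀ y ∈ ball j.pt r,
      ‖G i y - fderiv ℂ (G i) j.pt (y - j.pt)‖ ≤ K * ‖y - j.pt‖ ^ 2 := by
    intro i
    set f : Mod m k → ℂ := fun y => G i y - fderiv ℂ (G i) j.pt (y - j.pt) with hf
    have hfd : DifferentiableOn ℂ f W :=
      (hd i).sub (((fderiv ℂ (G i) j.pt).differentiable.comp
        (differentiable_id.sub_const j.pt)).differentiableOn)
    obtain ⟨K, hK⟩ := (isCompact_closedBall j.pt r).exists_bound_of_continuousOn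
      (hfd.continuousOn.mono hrW)
    have hf0 : f j.pt = 0 := by simp [hf, hG0]
    refine ⟨K / r ^ 2, fun y hy => ?_⟩
    have h := Complex.dist_le_mul_div_pow_of_mapsTo_ball_of_isLittleO (n := 1)
      (hfd.mono (ball_subset_closedBall.trans hrW))
      (fun z hz => by rw [hf0, mem_closedBall_zero_iff]; exact hK z (ball_subset_closedBall hz))
      (by
        have h := ((hd i).differentiableAt (hW.mem_nhds hpt)).hasFDerivAt.isLittleO
        simpa [hf, hG0] using h.norm_right) hy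
    rw [hf0, dist_zero_right, dist_eq_norm] at h
    exact h.trans (le_of_eq (by rw [div_pow]; ring))
  choose K hK using hbd
  set Φ : Cn k →ₗ[ℂ] (Fin k → ℂ) :=
    LinearMap.pi fun i => (j.der (G i) : Cn k →ₗ[ℂ] ℂ) with hΦ
  obtain ⟨κ, -, hκ⟩ := Φ.exists_antilipschitzWith
    (ker_eq_bot _ (j.linearIndependent_der hli hsplit))
  refine ⟨r, hr, fun C => ?_⟩
  set A := Real.sqrt (C / c) with hA
  set B := |C| + (∑ i, |K i|) * A ^ 2 with hB
  refine ⟨max A (κ * B + ‖j.q2‖ * A * A), fun l y hl hy hre hC => ?_⟩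
  set D := y - j.pt with hD
  have hC0 : 0 ≤ C := by
    by_contra hneg
    nlinarith [hC ⟨0, hk⟩, norm_nonneg (G ⟨0, hk⟩ y), pow_pos hl 2]
  have hDl : ‖D‖ ≤ A * l := by
    have h1 : c * ‖D‖ ^ 2 ≤ C * l ^ 2 := by
      linarith [hre ⟨0, hk⟩, hC ⟨0, hk⟩, neg_abs_le (G ⟨0, hk⟩ y).re,
        Complex.abs_re_le_norm (G ⟨0, hk⟩ y)]
    refine (pow_le_pow_iff_left₀ (norm_nonneg _) (by positivity) two_ne_zero).1 ?_
    rw [mul_pow, hA, Real.sq_sqrt (div_nonneg hC0 hc.le), div_mul_eq_mul_div, le_div_iff₀ hc]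
    linarith
  set p := j.Θi l y with hp
  have hyp : D = j.lin ((l : ℂ) • p.1, ((l : ℂ) ^ 2) • (p.2 + j.q2 p.1 p.1)) := by
    rw [hD, ← j.Θ_Θi hl.ne' y, ← hp, Jet.Θ, Jet.pt, add_sub_cancel_left]
  have hp1 : ‖p.1‖ ≤ A := by
    have h1 : l * ‖p.1‖ ≤ ‖D‖ := by
      rw [← j.norm_fst_lin_smul hl p.1 (((l : ℂ) ^ 2) • (p.2 + j.q2 p.1 p.1)), ← hyp]
      exact norm_fst_le D
    nlinarith
  have hw : ∀ i, ‖j.der (G i) (p.2 + j.q2 p.1 p.1)‖ ≤ B := by
    intro i
    have h1 : fderiv ℂ (G i) j.pt D = ((l : ℂ) ^ 2) * j.der (G i) (p.2 + j.q2 p.1 p.1) := by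
      rw [hyp, hsplit, map_smul, smul_eq_mul]
    have h2 : ‖fderiv ℂ (G i) j.pt D‖ ≤ B * l ^ 2 := by
      have h3 := hK i y hy
      rw [← hD] at h3
      have h4 : K i * ‖D‖ ^ 2 ≤ (∑ i, |K i|) * (A * l) ^ 2 := by
        refine (mul_le_mul_of_nonneg_right (le_abs_self _) (by positivity)).trans ?_
        exact mul_le_mul (Finset.single_le_sum (fun i _ => abs_nonneg (K i)) (Finset.mem_univ i))
          (pow_le_pow_left₀ (norm_nonneg _) hDl 2) (by positivity)
          (Finset.sum_nonneg fun i _ => abs_nonneg _)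
      have h5 := norm_sub_norm_le (fderiv ℂ (G i) j.pt D) (G i y)
      rw [norm_sub_rev] at h3
      rw [hB, abs_of_nonneg hC0]
      nlinarith [hC i]
    rw [h1, norm_mul, norm_pow, Complex.norm_real, Real.norm_eq_abs, sq_abs,
      mul_comm] at h2
    exact le_of_mul_le_mul_right h2 (pow_pos hl 2)
  have hw' : ‖p.2 + j.q2 p.1 p.1‖ ≤ κ * B := by
    refine (hκ.le_mul_norm (map_zero Φ) _).trans (mul_le_mul_of_nonneg_left ?_ κ.coe_nonneg)
    exact (pi_norm_le_iff_of_nonneg ((norm_nonneg _).trans (hw ⟨0, hk⟩))).2 hw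
  rw [Prod.norm_def]
  refine max_le_max hp1 ?_
  have hq : ‖j.q2 p.1 p.1‖ ≤ ‖j.q2‖ * A * A :=
    (j.q2.le_opNorm₂ _ _).trans (by gcongr)
  calc ‖p.2‖ = ‖(p.2 + j.q2 p.1 p.1) - j.q2 p.1 p.1‖ := by rw [add_sub_cancel_right]
    _ ≤ _ := (norm_sub_le _ _).trans (add_le_add hw' hq)
end Jet

end

end Vale.Agent.P274.Full.Scaling
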