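import Vale.Agent.P274.Full.Stmts
import Vale.Agent.P274.Full.Taut.Taut
import Mathlib.Analysis.Complex.Liouville

/-!
A tube over a cone biholomorphic to the domain is a Siegel domain carrying a proper cocompact
group of automorphisms.
-/

open Filter Metric Set Function Topology

namespace Vale.Agent.P274.Full.Scaling

noncomputable section

variable {N m k : ℕ}

private theorem form_smul_self {H : Cn m →L[ℝ] Cn m →L[ℝ] Rn k} (hs : ∀ a b, H a b = H b a)
    (hI : ∀ a b, H (Complex.I • a) (Complex.I • b) = H a b) (a : Cn m) (c : ℂ) :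
    H (c • a) (c • a) = (c.re * c.re + c.im * c.im) • H a a := by
  have hcross : H (Complex.I • a) a = 0 := by
    have h := hI (Complex.I • a) a
    rw [smul_smul, Complex.I_mul_I, neg_one_smul, map_neg, neg_apply, hs a] at h
    ext i
    have h' := congrFun (congrArg (fun z : Rn k => (z : Fin k → ℝ)) h) i
    simp only [PiLp.neg_apply] at h'
    simp only [PiLp.zero_apply]
    linarith
  have e : c • a = c.re • a + c.im • (Complex.I • a) := by
    conv_lhs => rw [← Complex.re_add_im c]
    rw [add_smul, mul_smul, Complex.coe_smul, Complex.coe_smul]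
  rw [e]
  simp only [map_add, map_smul, add_apply, smul_apply, hI, hcross, hs a (Complex.I • a),
    smul_zero, add_zero, zero_add, smul_smul, add_smul]

private theorem eq_zero_of_forall_apply {ν : Fin k → (Rn k →L[ℝ] ℝ)}
    (hν : LinearIndependent ℝ ν) {x : Rn k} (h : ∀ l, ν l x = 0) : x = 0 := by
  classical
  have hν' : LinearIndependent ℝ fun l => (ν l : Rn k →ₗ[ℝ] ℝ) :=
    hν.map' (ContinuousLinearMap.coeLM ℝ) (LinearMap.ker_eq_bot.2 fun f g hfg =>
      ContinuousLinearMap.ext fun v => LinearMap.congr_fun hfg v)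
  by_cases hk : k = 0
  · subst hk; exact Subsingleton.elim _ _
  have : Nonempty (Fin k) := ⟨⟨0, Nat.pos_of_ne_zero hk⟩⟩
  have hspan := hν'.span_eq_top_of_card_eq_finrank
    (by rw [Subspace.dual_finrank_eq, finrank_euclideanSpace])
  refine (Module.forall_dual_apply_eq_zero_iff ℝ x).1 fun φ => ?_
  have hφ : φ ∈ Submodule.span ℝ (Set.range fun l => (ν l : Rn k →ₗ[ℝ] ℝ)) := by
    rw [hspan]; exact Submodule.mem_top
  induction hφ using Submodule.span_induction with
  | mem y hy =>
    obtain ⟨l, rfl⟩ := hy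
    exact h l
  | zero => rfl
  | add y z _ _ hy hz => simp [hy, hz]
  | smul c y _ hy => simp [hy]

/-- The limit domain is a Siegel domain, taut and with a proper cocompact group. -/
theorem siegel_of_biholo (htaut : TautStmt) (hhull : HullStmt) (D : CDom N)
    (H : Cn m →L[ℝ] Cn m →L[ℝ] Rn k) (hsymm : ∀ a b, H a b = H b a)
    (hI : ∀ a b, H (Complex.I • a) (Complex.I • b) = H a b)
    {C : Set (Rn k)} (hC : IsOpen C) (hCc : IsConnected C)
    (hcone : ∀ v ∈ C, ∀ t : ℝ, 0 < t → t • v ∈ C)
    (ν : Fin k → (Rn k →L[ℝ] ℝ)) (hν : LinearIndependent ℝ ν) (hν0 : ∀ l, ∀ v ∈ C, 0 ≤ ν l v)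
    (F : Cn N → Mod m k) (G : Mod m k → Cn N) (hF : HolOn F D.U)
    (hFm : MapsTo F D.U {p | iv p.2 - H p.1 p.1 ∈ C})
    (hG : DifferentiableOn ℂ G {p | iv p.2 - H p.1 p.1 ∈ C})
    (hGm : MapsTo G {p | iv p.2 - H p.1 p.1 ∈ C} D.U)
    (hGF : ∀ z ∈ D.U, G (F z) = z)
    (hFG : ∀ w ∈ {p : Mod m k | iv p.2 - H p.1 p.1 ∈ C}, F (G w) = w) :
    ∃ (m' k' : ℕ) (S : Siegel m' k') (T : TDom (Mod m' k')), T.V = S.dom ∧ BiholTo D.U S.dom := by
  set V : Set (Mod m k) := {p | iv p.2 - H p.1 p.1 ∈ C} with hVdef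
  have hVo : IsOpen V := by
    refine hC.preimage (Continuous.sub ?_ (by fun_prop))
    exact (PiLp.continuous_toLp 2 _).comp (continuous_pi fun i => by fun_prop)
  have himage : F '' D.U = V :=
    Subset.antisymm hFm.image_subset fun w hw => ⟨G w, hGm hw, hFG w hw⟩
  have hcomp : ∀ (a : Cn N → Cn N), HolOn a D.U → MapsTo a D.U D.U →
      DifferentiableOn ℂ (fun w => F (a (G w))) V := fun a ha hm =>
    hF.comp_differentiableOn (φ := fun w => a (G w)) hVo
      (ha.comp_differentiableOn hVo hG hGm) (hm.comp hGm)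
  let T : TDom (Mod m k) :=
    { V := V
      isOpen_V := hVo
      connected_V := himage ▸ D.connected_U.image F hF.continuousOn
      G := D.G
      act := fun g w => F (D.act g (G w))
      back := fun g w => F (D.back g (G w))
      maps := fun g w hw => hFm (D.maps g (hGm hw))
      maps_back := fun g w hw => hFm (D.maps_back g (hGm hw))
      diff := fun g => hcomp _ (D.hol g) (D.maps g)
      diff_back := fun g => hcomp _ (D.hol_back g) (D.maps_back g)
      back_act := fun g w hw => by
        simp only [hGF _ (D.maps g (hGm hw)), D.back_act g _ (hGm hw), hFG w hw]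
      act_back := fun g w hw => by
        simp only [hGF _ (D.maps_back g (hGm hw)), D.act_back g _ (hGm hw), hFG w hw]
      one_mem := by
        obtain ⟨e, he⟩ := D.one_mem
        exact ⟨e, fun w hw => by simp [he (hGm hw), hFG w hw]⟩
      mul := fun g h => by
        obtain ⟨e, he⟩ := D.mul g h
        exact ⟨e, fun w hw => by simp [he (hGm hw), hGF _ (D.maps h (hGm hw))]⟩
      inv := fun g => by
        obtain ⟨e, he⟩ := D.inv g
        exact ⟨e, fun w hw => by simp [he (hGm hw)]⟩
      finite := fun K L hK hL hKV hLV => by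
        refine (D.finite (G '' K) (G '' L) (hK.image_of_continuousOn (hG.continuousOn.mono hKV))
          (hL.image_of_continuousOn (hG.continuousOn.mono hLV)) (hGm.mono_left hKV).image_subset
          (hGm.mono_left hLV).image_subset).subset ?_
        rintro g ⟨w, hw, hgw⟩
        exact ⟨G w, ⟨w, hw, rfl⟩, ⟨_, hgw, hGF _ (D.maps g (hGm (hKV hw)))⟩⟩
      K := F '' D.K
      compact_K := D.compact_K.image_of_continuousOn (hF.continuousOn.mono D.K_subset)
      K_subset := (hFm.mono_left D.K_subset).image_subset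
      cover := fun w hw => by
        obtain ⟨g, hg⟩ := D.cover (G w) (hGm hw)
        exact ⟨g, _, hg, rfl⟩
      taut := fun n O S a L hO hconn hS hSO ha hL hLV => by
        obtain ⟨L', hL', hL'U, hmaps⟩ := htaut N D n O S a (G '' L) hO hconn hS hSO ha
          (hL.image_of_continuousOn (hG.continuousOn.mono hLV)) (hGm.mono_left hLV).image_subset
        refine ⟨F '' L', hL'.image_of_continuousOn (hF.continuousOn.mono hL'U),
          (hFm.mono_left hL'U).image_subset, fun φ hφ hm haL s hs => ?_⟩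
        exact ⟨G (φ s), hmaps (fun s => G (φ s)) (hG.comp hφ hm) (hGm.comp hm) ⟨_, haL, rfl⟩ hs,
          hFG _ (hm (hSO hs))⟩ }
  obtain ⟨hconv, hadd⟩ := hhull m k H hsymm hI C hC hCc hcone T rfl
  have hpos : ∀ l, ∀ v ∈ C, 0 < ν l v := by
    intro l v hv
    refine lt_of_le_of_ne (hν0 l v hv) fun h0 => ?_
    obtain ⟨x, hx⟩ : ∃ x, ν l x ≠ 0 := by
      by_contra hall
      push Not at hall
      exact hν.ne_zero l (ContinuousLinearMap.ext hall)
    have hev : ∀ᶠ t in 𝓝 (0 : ℝ), v + t • x ∈ C :=
      (Continuous.tendsto' (by fun_prop) _ _ (by simp)).eventually (hC.mem_nhds hv)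
    obtain ⟨r, hr, hball⟩ := Metric.eventually_nhds_iff.1 hev
    have h1 := hν0 l _ (hball (y := r / 2) (by
      rw [Real.dist_eq, sub_zero, abs_of_pos] <;> linarith))
    have h2 := hν0 l _ (hball (y := -(r / 2)) (by
      rw [Real.dist_eq, sub_zero, abs_neg, abs_of_pos] <;> linarith))
    simp only [map_add, map_smul, ← h0, smul_eq_mul, zero_add] at h1 h2
    exact hx (by nlinarith)
  obtain ⟨v, hv⟩ := hCc.nonempty
  have hposH : ∀ a, a ≠ 0 → ∃ l, 0 < ν l (H a a) := by
    intro a ha
    by_contra hall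
    push Not at hall
    have hzero : ∀ l, ν l (H a a) = 0 := fun l => by
      refine le_antisymm (hall l) (not_lt.1 fun hneg => ?_)
      obtain ⟨t, ht⟩ : ∃ t : ℝ, t ^ 2 * -ν l (H a a) = ν l v + 1 :=
        ⟨Real.sqrt ((ν l v + 1) / -ν l (H a a)), by
          rw [Real.sq_sqrt (div_nonneg (by linarith [hpos l v hv]) (by linarith)),
            div_mul_cancel₀ _ (by linarith)]⟩
      have h1 := hν0 l _ (hadd (t • a) v hv)
      simp only [map_add, map_smul, smul_apply, smul_eq_mul] at h1
      nlinarith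
    have hH : H a a = 0 := eq_zero_of_forall_apply hν hzero
    set σ : ℂ → Mod m k := fun t => (t • a, mkC 0 v) with hσ
    have hσV : ∀ t, σ t ∈ V := fun t => by
      show iv (mkC 0 v) - H (t • a) (t • a) ∈ C
      rw [form_smul_self hsymm hI, hH, smul_zero, sub_zero]
      convert hv using 1
      ext i
      simp [iv, mkC]
    have hσd : Differentiable ℂ σ := by
      simp only [hσ]
      fun_prop
    have hGd : Differentiable ℂ fun t => G (σ t) := fun t =>
      (hG.differentiableAt (hVo.mem_nhds (hσV t))).comp t (hσd t)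
    obtain ⟨M, hM⟩ := D.bounded_U.exists_norm_le
    have hb : Bornology.IsBounded (Set.range fun t => G (σ t)) := by
      rw [isBounded_iff_forall_norm_le]
      exact ⟨M, by rintro _ ⟨t, rfl⟩; exact hM _ (hGm (hσV t))⟩
    have h01 := congrArg F (hGd.apply_eq_apply_of_bounded hb 0 1)
    rw [hFG _ (hσV 0), hFG _ (hσV 1)] at h01
    exact ha (by simpa [hσ] using (congrArg Prod.fst h01).symm)
  exact ⟨m, k, ⟨H, hsymm, hI, C, hC, hCc.nonempty, hconv, hcone, hadd, ν, hν, hpos, hposH⟩, T,
    rfl, F, G, hF, hFm, hG, hGm, hGF, hFG⟩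

end

end Vale.Agent.P274.Full.Scaling
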