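import Vale.Agent.P274.Full.Scaling.Kernel
import Vale.Agent.P274.Full.Scaling.Peak
import Vale.Agent.P274.Full.Scaling.Limit
import Vale.Agent.P274.Full.Scaling.Siegel

/-!
Scaling at a generic point of the edge identifies `U` with a Siegel domain.
-/

open Filter Metric Set Function Topology

namespace Vale.Agent.P274.Full.Scaling

noncomputable section

variable {N m k : ℕ} {D : CDom N}

theorem holOn_comp {E : Type*} [NormedAddCommGroup E] [NormedSpace ℂ E] {f : Cn N → Cn N}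
    {U s : Set (Cn N)} (hf : HolOn f U) (hsU : s ⊆ U) {h : Cn N → E} {V : Set (Cn N)}
    (hV : IsOpen V) (hh : DifferentiableOn ℂ h V) (hm : MapsTo f s V) :
    HolOn (fun z => h (f z)) s := by
  intro z hz
  obtain ⟨W, g, hW, hzW, hg, he⟩ := hf z (hsU hz)
  refine ⟨W ∩ g ⁻¹' V, h ∘ g, hg.continuousOn.isOpen_inter_preimage hW hV, ⟨hzW, ?_⟩,
    hh.comp (hg.mono inter_subset_left) fun y hy => hy.2,
    fun y hy => congrArg h (he ⟨hy.1.1, hsU hy.2⟩)⟩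
  show g z ∈ V
  rw [← he ⟨hzW, hsU hz⟩]
  exact hm hz

/-- Near a point of `U`, values of a function with negative real part are comparable. -/
theorem exists_compare (hsm : ∀ z ∈ D.U, ∃ φ : Chart D (m + k) 0, φ.ψ 0 = z) {a : Cn N}
    (ha : a ∈ D.U) :
    ∃ V ∈ 𝓝 a, ∃ K : Set (Cn N), IsCompact K ∧ K ⊆ D.U ∧ V ∩ D.U ⊆ K ∧
      ∀ u : Cn N → ℂ, HolOn u K → (∀ z ∈ K, (u z).re < 0) →
        ∀ z ∈ V ∩ D.U, ∀ z' ∈ V ∩ D.U, ‖u z‖ ≤ 3 * ‖u z'‖ := by
  obtain ⟨φ, hφ⟩ := hsm a ha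
  have hU : ∀ z, z ∈ D.U ↔ z ∈ D.Z ∧ z ∈ D.O := fun z => by rw [D.U_eq, mem_inter_iff]
  have : ProperSpace (Mod (m + k) 0) := FiniteDimensional.proper ℂ _
  obtain ⟨r, hr, hrW⟩ := Metric.nhds_basis_closedBall.mem_iff.1
    ((φ.diff_ψ.continuousOn.isOpen_inter_preimage φ.isOpen_W D.isOpen_O).mem_nhds
      (x := 0) ⟨φ.zero_mem, by rw [mem_preimage, hφ]; exact ((hU a).1 ha).2⟩)
  have hψU : MapsTo φ.ψ (closedBall 0 r) D.U := fun y hy =>
    (hU _).2 ⟨(φ.maps_ψ y (hrW hy).1).1, (hrW hy).2⟩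
  have haB : a ∈ φ.B := hφ ▸ (φ.maps_ψ 0 φ.zero_mem).2
  have hπa : φ.π a = 0 := by rw [← hφ, φ.π_ψ 0 φ.zero_mem]
  have hball : closedBall (0 : Mod (m + k) 0) r ⊆ φ.W := fun y hy => (hrW hy).1
  refine ⟨φ.B ∩ φ.π ⁻¹' ball 0 (r / 8),
    (φ.diff_π.continuousOn.isOpen_inter_preimage φ.isOpen_B isOpen_ball).mem_nhds
      ⟨haB, by rw [mem_preimage, hπa]; exact mem_ball_self (by positivity)⟩,
    φ.ψ '' closedBall 0 r,
    (isCompact_closedBall _ _).image_of_continuousOn (φ.diff_ψ.continuousOn.mono hball),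
    hψU.image_subset, ?_, ?_⟩
  · rintro z ⟨⟨hzB, hzr⟩, hzU⟩
    exact ⟨φ.π z, closedBall_subset_closedBall (by linarith) (ball_subset_closedBall hzr),
      φ.ψ_π z ⟨((hU z).1 hzU).1, hzB⟩⟩
  rintro u hu hneg z ⟨⟨hzB, hzr⟩, hzU⟩ z' ⟨⟨hzB', hzr'⟩, hzU'⟩
  rw [mem_preimage, mem_ball] at hzr hzr'
  have hsub : ball (φ.π z') (r / 2) ⊆ closedBall 0 r :=
    (ball_subset_ball' (by linarith)).trans ball_subset_closedBall
  have h := norm_le_of_re_neg (f := u ∘ φ.ψ) (r := r / 2) (y := φ.π z) (by positivity)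
    (hu.comp_differentiableOn isOpen_ball (φ.diff_ψ.mono (hsub.trans hball))
      fun y hy => ⟨y, hsub hy, rfl⟩)
    (fun y hy => hneg _ ⟨y, hsub hy, rfl⟩)
    (by
      rw [mem_ball]
      have := dist_triangle_right (φ.π z) (φ.π z') 0
      linarith)
  simpa [φ.ψ_π z ⟨((hU z).1 hzU).1, hzB⟩, φ.ψ_π z' ⟨((hU z').1 hzU').1, hzB'⟩] using h

theorem mem_U_of_mem_Uc {φ : Chart D m k} {y : Mod m k} (hy : y ∈ φ.Uc) : φ.ψ y ∈ D.U := hy.2

theorem isOpen_Uc (φ : Chart D m k) : IsOpen φ.Uc := by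
  have h : φ.Uc = φ.W ∩ φ.ψ ⁻¹' D.O := Set.ext fun y => by
    simp only [Chart.Uc, mem_ofPred_eq, mem_inter_iff, mem_preimage, D.U_eq]
    exact ⟨fun h => ⟨h.1, h.2.2⟩, fun h => ⟨h.1, (φ.maps_ψ y h.1).1, h.2⟩⟩
  rw [h]
  exact φ.diff_ψ.continuousOn.isOpen_inter_preimage φ.isOpen_W D.isOpen_O

/-- The component of the cone of heights. -/
theorem component_cone {P : Patch D m k} {x : Cn m × Rn k} {d₀ v : Rn k}
    (hv : v ∈ connectedComponentIn (cset P x) d₀) {t : ℝ} (ht : 0 < t) :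
    t • v ∈ connectedComponentIn (cset P x) d₀ := by
  rw [connectedComponentIn_eq hv]
  refine IsPreconnected.subset_connectedComponentIn
    ((isPreconnected_Ioi (a := (0 : ℝ))).image (fun s : ℝ => s • v)
      (continuous_id.smul continuous_const).continuousOn) ⟨1, (one_pos : (0 : ℝ) < 1), one_smul _ _⟩ ?_
    ⟨t, ht, rfl⟩
  rintro _ ⟨s, hs, rfl⟩
  exact smul_mem_cset (connectedComponentIn_subset _ _ hv) hs

end

end Vale.Agent.P274.Full.Scaling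

namespace Vale.Agent.P274.Full

open Scaling

noncomputable section

/-- Scaling at the edge identifies `U` with a Siegel domain. -/
theorem scaling (hp : SAProjStmt) (_hi : SAInteriorStmt) (htail : SATailStmt) (htaut : TautStmt)
    (hhull : HullStmt) : ScalingStmt := by
  intro N m k D P I hsm
  obtain ⟨x, hxI, hgen⟩ := exists_generic P hp htail I.isOpen_S' I.nonempty_S' I.sub
  have hx : x ∈ P.S := I.sub hxI
  set j := jetAt P.toLoc x hx with hj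
  have hpt : lift P.h x 0 = j.pt := by simp [lift, Jet.pt, hj, jetAt]
  have hptW : j.pt ∈ P.W := hpt ▸ P.edge_W x hx
  have hqU : P.ψ j.pt ∉ D.U := hpt ▸ (P.edge_frontier x hx).2
  have hqB : P.ψ j.pt ∈ P.B := (P.maps_ψ _ hptW).2
  have hπq : P.π (P.ψ j.pt) = j.pt := P.π_ψ _ hptW
  have hψc : ContinuousAt P.ψ j.pt := P.diff_ψ.continuousOn.continuousAt (P.isOpen_W.mem_nhds hptW)
  obtain ⟨G, c, hc, hGd, hG0, hGre, hGli⟩ := P.peak x hx
  rw [hpt] at hG0 hGre hGli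
  -- the component of the cone and the tube over it
  obtain ⟨d₀, hd₀⟩ := nonempty_cset I hxI hgen
  set C₀ := connectedComponentIn (cset P x) d₀ with hC₀
  have hC₀c : IsConnected C₀ := isConnected_connectedComponentIn_iff.2 hd₀
  have hC₀o : IsOpen C₀ := isOpen_cset.connectedComponentIn
  have hC₀sub : C₀ ⊆ cset P x := connectedComponentIn_subset _ _
  set L : Set (Mod m k) := {p | iv p.2 - j.H p.1 p.1 ∈ C₀} with hLdef
  have hLo : IsOpen L := hC₀o.preimage j.continuous_height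
  have hLimage : L = (fun q : (Cn m × Rn k) × Rn k => (q.1.1, mkC q.1.2 (q.2 + j.H q.1.1 q.1.1))) ''
      (univ ×ˢ C₀) := by
    refine Set.ext fun p => ⟨fun h => ⟨((p.1, rv p.2), j.height p), ⟨trivial, h⟩, ?_⟩, ?_⟩
    · simp [Jet.height, mkC_rv_iv]
    · rintro ⟨⟨⟨a, u⟩, v⟩, ⟨-, hv⟩, rfl⟩
      show j.height (a, mkC u (v + j.H a a)) ∈ C₀
      rw [j.height_mk]
      exact hv
  have hLc : IsPreconnected L := by
    rw [hLimage]
    refine (isPreconnected_univ.prod hC₀c.isPreconnected).image _ (Continuous.continuousOn ?_)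
    exact (continuous_fst.comp continuous_fst).prodMk (continuous_mkC.comp
      ((continuous_snd.comp continuous_fst).prodMk (continuous_snd.add
        ((j.H.continuous.comp (continuous_fst.comp continuous_fst)).clm_apply
          (continuous_fst.comp continuous_fst)))))
  set p₀ : Mod m k := (0, mkC 0 d₀) with hp₀
  have hp₀h : j.height p₀ = d₀ := by simp [hp₀, Jet.height]
  have hp₀L : p₀ ∈ L := by
    show j.height p₀ ∈ C₀
    rw [hp₀h]
    exact mem_connectedComponentIn hd₀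
  have hmemL : ∀ p ∈ L, ∀ᶠ q : ℝ × Mod m k in 𝓝[>] 0 ×ˢ 𝓝 p, j.Θ q.1 q.2 ∈ P.toChart.Uc :=
    fun p hp => eventually_mem (hC₀sub hp)
  have hpair : ∀ p : Mod m k, Tendsto (fun l : ℝ => (l, p)) (𝓝[>] 0) (𝓝[>] 0 ×ˢ 𝓝 p) :=
    fun p => tendsto_id.prodMk tendsto_const_nhds
  obtain ⟨δ, hδ, hδ'⟩ := mem_nhdsGT_iff_exists_Ioo_subset.1
    ((hpair p₀).eventually (hmemL p₀ hp₀L))
  rw [mem_Ioi] at hδ
  -- the sequence of scales and automorphisms
  set s : ℕ → ℝ := fun n => δ / (n + 2) with hs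
  have hsI : ∀ n, s n ∈ Ioo 0 δ := fun n => ⟨div_pos hδ (by positivity), by
    rw [hs, div_lt_iff₀ (by positivity)]
    nlinarith [show (0 : ℝ) ≤ n from Nat.cast_nonneg n]⟩
  have hs0 : Tendsto s atTop (𝓝 0) :=
    tendsto_const_nhds.div_atTop (tendsto_natCast_atTop_atTop.atTop_add tendsto_const_nhds)
  have hyU : ∀ n, P.ψ (j.Θ (s n) p₀) ∈ D.U := fun n => mem_U_of_mem_Uc (hδ' (hsI n))
  choose γ hγ using fun n => D.cover _ (hyU n)
  obtain ⟨c₀, hc₀K, φ, hφ, hlim⟩ := D.compact_K.tendsto_subseq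
    (x := fun n => D.act (γ n) (P.ψ (j.Θ (s n) p₀))) hγ
  have hc₀ : c₀ ∈ D.U := D.K_subset hc₀K
  set l : ℕ → ℝ := fun n => s (φ n) with hl
  have hl0 : Tendsto l atTop (𝓝[>] 0) :=
    tendsto_nhdsWithin_iff.2 ⟨hs0.comp hφ.tendsto_atTop,
      Eventually.of_forall fun n => (hsI _).1⟩
  choose β hβ using fun n => D.inv (γ (φ n))
  have hβγ : ∀ n, ∀ z ∈ D.U, D.act (β n) (D.act (γ (φ n)) z) = z := fun n z hz => by
    rw [hβ n (D.maps _ hz), D.back_act _ z hz]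
  have hγβ : ∀ n, ∀ z ∈ D.U, D.act (γ (φ n)) (D.act (β n) z) = z := fun n z hz => by
    rw [hβ n hz, D.act_back _ z hz]
  have hcU : ∀ n, D.act (γ (φ n)) (P.ψ (j.Θ (l n) p₀)) ∈ D.U := fun n => D.maps _ (hyU _)
  have horb : ∀ K ⊆ D.U, IsCompact K →
      TendstoUniformlyOn (fun n => D.act (β n)) (fun _ => P.ψ j.pt) atTop K := by
    have h := P.orbit x hx β (fun n => D.act (γ (φ n)) (P.ψ (j.Θ (l n) p₀))) c₀ hc₀ hcU hlim
      (by
        rw [hpt]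
        refine ((hψc.tendsto.comp (j.tendsto_Θ p₀)).comp (hl0.mono_right nhdsWithin_le_nhds)).congr
          fun n => ?_
        exact (hβγ n _ (hyU _)).symm)
    rwa [hpt] at h
  set f : ℕ → Cn N → Mod m k := fun n z => j.Θi (l n) (P.π (D.act (β n) z)) with hf
  set g : ℕ → Mod m k → Cn N := fun n p => D.act (γ (φ n)) (P.ψ (j.Θ (l n) p)) with hg
  set Ω : ℕ → Set (Mod m k) := fun n => j.Θ (l n) ⁻¹' P.toChart.Uc with hΩ
  have hlne : ∀ n, l n ≠ 0 := fun n => (hsI _).1.ne'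
  -- first derivatives of the peak functions
  have hpeak : ∀ i, (∀ ζ ω, fderiv ℂ (G i) j.pt (j.lin (ζ, ω)) = j.der (G i) ω) ∧
      (∀ w, j.der (G i) w = (⟨-j.nu (G i) (iv w), j.nu (G i) (rv w)⟩ : ℂ)) ∧
      ∀ v ∈ C₀, 0 ≤ j.nu (G i) v := fun i => by
    refine j.peak_deriv ((hGd i).differentiableAt (P.isOpen_W.mem_nhds hptW)) (hG0 i) hC₀c.nonempty
      fun a u v hv => ?_
    have hm : (a, mkC u (v + j.H a a)) ∈ L := by
      show j.height _ ∈ C₀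
      rw [j.height_mk]
      exact hv
    filter_upwards [(hpair _).eventually (hmemL _ hm)] with e he
    exact (hGre i _ he.1 he.2).trans
      (mul_nonpos_of_nonpos_of_nonneg (neg_nonpos.2 hc.le) (sq_nonneg _))
  have hsplit := fun i => (hpeak i).1
  obtain ⟨R, hR, hbound⟩ := j.exists_bound P.isOpen_W hptW G hGd hG0 hGli hsplit P.k_pos hc
  -- the edge neighbourhood which the back maps reach
  have hV₁ : IsOpen (P.B ∩ P.π ⁻¹' (P.W ∩ ball j.pt R)) :=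
    P.diff_π.continuousOn.isOpen_inter_preimage P.isOpen_B (P.isOpen_W.inter isOpen_ball)
  have hreach : ∀ K ⊆ D.U, IsCompact K → ∀ᶠ n in atTop, ∀ z ∈ K,
      D.act (β n) z ∈ P.B ∩ P.π ⁻¹' (P.W ∩ ball j.pt R) := by
    intro K hKU hK
    obtain ⟨ε, hε, hεV⟩ := Metric.mem_nhds_iff.1 (hV₁.mem_nhds (x := P.ψ j.pt)
      ⟨hqB, by rw [mem_preimage, hπq]; exact ⟨hptW, mem_ball_self hR⟩⟩)
    filter_upwards [Metric.tendstoUniformlyOn_iff.1 (horb K hKU hK) ε hε] with n hn z hz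
    exact hεV (by rw [mem_ball, dist_comm]; exact hn z hz)
  have hchart : ∀ n, ∀ z ∈ D.U, D.act (β n) z ∈ P.B →
      P.π (D.act (β n) z) ∈ P.toChart.Uc ∧ P.ψ (P.π (D.act (β n) z)) = D.act (β n) z := by
    intro n z hz hB
    have hzU := D.maps (β n) hz
    have hZ : D.act (β n) z ∈ D.Z := (D.U_eq ▸ hzU : D.act (β n) z ∈ D.Z ∩ D.O).1
    refine ⟨⟨P.maps_π _ ⟨hZ, hB⟩, ?_⟩, P.ψ_π _ ⟨hZ, hB⟩⟩
    rw [P.ψ_π _ ⟨hZ, hB⟩]
    exact hzU
  have hne : ∀ y ∈ P.toChart.Uc, y ≠ j.pt := fun y hy h => hqU (h ▸ mem_U_of_mem_Uc hy)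
  -- the peak functions are of second order along the orbit, locally uniformly
  set Good : Cn N → Prop := fun z => ∃ V ∈ 𝓝 z, ∃ C : ℝ, ∀ᶠ n in atTop, ∀ z' ∈ V ∩ D.U, ∀ i,
    ‖G i (P.π (D.act (β n) z'))‖ ≤ C * l n ^ 2 with hGood
  have hcmp : ∀ a ∈ D.U, ∃ V ∈ 𝓝 a, ∃ K, IsCompact K ∧ K ⊆ D.U ∧ V ∩ D.U ⊆ K ∧
      ∀ᶠ n in atTop, ∀ i, ∀ z ∈ V ∩ D.U, ∀ z' ∈ V ∩ D.U,
        ‖G i (P.π (D.act (β n) z))‖ ≤ 3 * ‖G i (P.π (D.act (β n) z'))‖ := by
    intro a ha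
    obtain ⟨V, hV, K, hK, hKU, hVK, hcmp⟩ := exists_compare hsm ha
    refine ⟨V, hV, K, hK, hKU, hVK, (hreach K hKU hK).mono fun n hn i => hcmp _ ?_ fun z hz => ?_⟩
    · exact holOn_comp (D.hol (β n)) hKU hV₁
        ((hGd i).comp (P.diff_π.mono inter_subset_left) fun y hy => hy.2.1) hn
    · obtain ⟨hy, -⟩ := hchart n z (hKU hz) (hn z hz).1
      refine (hGre i _ hy.1 hy.2).trans_lt (mul_neg_of_neg_of_pos (neg_lt_zero.2 hc) ?_)
      have := norm_pos_iff.2 (sub_ne_zero.2 (hne _ hy))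
      positivity
  have hgood_c : Good c₀ := by
    obtain ⟨V, hV, K, hK, hKU, hVK, hev⟩ := hcmp c₀ hc₀
    have hbase : ∀ i, ∃ C : ℝ, ∀ᶠ n in atTop, ‖G i (j.Θ (l n) p₀)‖ ≤ C * l n ^ 2 := by
      intro i
      obtain ⟨C, hC, hb⟩ := ((hGd i).differentiableAt
        (P.isOpen_W.mem_nhds hptW)).hasFDerivAt.isBigO_sub.exists_pos
      refine ⟨C * ‖j.lin (0, mkC 0 d₀)‖, ?_⟩
      filter_upwards [((j.tendsto_Θ p₀).comp (hl0.mono_right nhdsWithin_le_nhds)).eventually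
        hb.bound] with n hn
      have hΔ : j.Θ (l n) p₀ - j.pt = ((l n : ℂ) ^ 2) • j.lin (0, mkC 0 d₀) := by
        simp only [Jet.Θ, Jet.pt, hp₀, smul_zero, map_zero, add_zero, add_sub_cancel_left]
        rw [← map_smul, Prod.smul_mk, smul_zero]
      simp only [Function.comp_apply, hG0, sub_zero, hΔ, norm_smul, norm_pow, Complex.norm_real,
        Real.norm_eq_abs, sq_abs] at hn
      linarith
    choose C hC using hbase
    refine ⟨V, hV, 3 * ∑ i, |C i|, ?_⟩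
    filter_upwards [hev, hlim.eventually_mem hV, eventually_all.2 hC] with n hn hcV hn' z hz i
    refine (hn i z hz _ ⟨hcV, hcU n⟩).trans ?_
    rw [comp_apply, show P.π (D.act (β n) (D.act (γ (φ n)) (P.ψ (j.Θ (s (φ n)) p₀)))) = j.Θ (l n) p₀ by
      rw [hβγ n _ (hyU _), P.π_ψ _ (hδ' (hsI _)).1], mul_assoc]
    gcongr
    exact (hn' i).trans (mul_le_mul_of_nonneg_right ((le_abs_self _).trans
      (Finset.single_le_sum (fun i _ => abs_nonneg (C i)) (Finset.mem_univ i))) (sq_nonneg _))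
  have hgood : ∀ z ∈ D.U, Good z := by
    intro z hz
    refine (D.connected_U.isPreconnected.induction₂ (fun a b => Good a ↔ Good b) (fun a ha => ?_)
      (fun a b e _ _ _ h h' => h.trans h') (fun a b _ _ h => h.symm) hc₀ hz).1 hgood_c
    obtain ⟨V, hV, K, hK, hKU, hVK, hev⟩ := hcmp a ha
    obtain ⟨O, hOV, hO, haO⟩ := _root_.mem_nhds_iff.1 hV
    have key : ∀ b ∈ O ∩ D.U, Good b → ∀ e ∈ O, Good e := by
      intro b hb ⟨V', hV', C, hC⟩ e he
      refine ⟨O, hO.mem_nhds he, 3 * C, ?_⟩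
      filter_upwards [hev, hC] with n hn hn' z hz i
      refine (hn i z ⟨hOV hz.1, hz.2⟩ b ⟨hOV hb.1, hb.2⟩).trans ?_
      rw [mul_assoc]
      gcongr
      exact hn' b ⟨mem_of_mem_nhds hV', hb.2⟩ i
    filter_upwards [mem_nhdsWithin_of_mem_nhds (hO.mem_nhds haO), self_mem_nhdsWithin] with b hb hbU
    exact ⟨fun h => key a ⟨haO, ha⟩ h b hb, fun h => key b ⟨hb, hbU⟩ h a haO⟩
  -- the limit
  have hgΩ : ∀ n, MapsTo (fun p => P.ψ (j.Θ (l n) p)) (Ω n) D.U := fun n p hp => mem_U_of_mem_Uc hp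
  have hΩo : ∀ n, IsOpen (Ω n) := fun n =>
    (isOpen_Uc P.toChart).preimage (j.differentiable_Θ (l n)).continuous
  have hfex : ∀ a ∈ D.U, ∃ V ∈ 𝓝 a, ∃ M : ℝ, ∀ᶠ n in atTop, HolOn (f n) (V ∩ D.U) ∧
      ∀ z ∈ V ∩ D.U, ‖f n z‖ ≤ M ∧ f n z ∈ Ω n ∧ g n (f n z) = z := by
    intro a ha
    obtain ⟨V₁, hV₁', C, hC⟩ := hgood a ha
    obtain ⟨V₂, hV₂, K, hK, hKU, hVK, -⟩ := hcmp a ha
    obtain ⟨M, hM⟩ := hbound C
    refine ⟨V₁ ∩ V₂, inter_mem hV₁' hV₂, M, ?_⟩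
    filter_upwards [hC, hreach K hKU hK] with n hn hr
    have hzK : ∀ z ∈ V₁ ∩ V₂ ∩ D.U, z ∈ K := fun z hz => hVK ⟨hz.1.2, hz.2⟩
    refine ⟨holOn_comp (D.hol (β n)) inter_subset_right hV₁
      ((j.differentiable_Θi (l n)).comp_differentiableOn (P.diff_π.mono inter_subset_left))
      fun z hz => hr z (hzK z hz), fun z hz => ?_⟩
    obtain ⟨hy, hψ⟩ := hchart n z hz.2 (hr z (hzK z hz)).1
    have hΘ : j.Θ (l n) (f n z) = P.π (D.act (β n) z) := j.Θ_Θi (hlne n) _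
    refine ⟨hM (l n) _ (hsI _).1 (hr z (hzK z hz)).2.2 (fun i => hGre i _ hy.1 hy.2)
      (hn z ⟨hz.1.1, hz.2⟩), by simpa [hΩ, hΘ] using hy, ?_⟩
    simp only [hg, hΘ, hψ]
    exact hγβ n z hz.2
  obtain ⟨F, G', hF, hFm, hG', hG'm, hGF, hFG⟩ := exists_biholo htaut D hsm hLo hLc hp₀L
    (L' := j.height ⁻¹' cset P x)
    (fun S hS hSc hpS p hp => (hSc.image _ j.continuous_height.continuousOn
      ).subset_connectedComponentIn ⟨p₀, hpS, hp₀h⟩ (image_subset_iff.2 hS) ⟨p, hp, rfl⟩)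
    Ω f g hΩo (fun n => hδ' (hsI _))
    (fun p hp => by
      obtain ⟨pa, hpa, pb, hpb, hab⟩ := eventually_prod_iff.1 (hmemL p hp)
      obtain ⟨r, hr, hrb⟩ := Metric.eventually_nhds_iff_ball.1 hpb
      exact ⟨r, hr, (hl0.eventually hpa).mono fun n hn q hq => hab hn (hrb q hq)⟩)
    (fun p ε hε hfr => height_mem_cset (hx := hx) hgen hε (hl0.frequently hfr))
    (fun n => (D.hol (γ (φ n))).comp_differentiableOn (hΩo n)
      (P.diff_ψ.comp (j.differentiable_Θ (l n)).differentiableOn fun p hp => hp.1) (hgΩ n))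
    (fun n p hp => D.maps _ (hgΩ n hp))
    (fun n p hp => by
      simp only [hf, hg]
      rw [hβγ n _ (hgΩ n hp), P.π_ψ _ hp.1, j.Θi_Θ (hlne n)])
    hc₀ hlim hfex
  exact siegel_of_biholo htaut hhull D j.H j.H_symm j.H_I hC₀o hC₀c
    (fun v hv t ht => component_cone hv ht) (fun i => j.nu (G i))
    (j.linearIndependent_nu (j.linearIndependent_der hGli hsplit) fun i => (hpeak i).2.1)
    (fun i => (hpeak i).2.2) F G' hF hFm hG' hG'm hGF hFG

end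

end Vale.Agent.P274.Full
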